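import Vale.Agent.P159.TM.H164.AsmC

/-!
P159 T1, part C: `StepC`.
-/

set_option linter.unusedSectionVars false

open MeasureTheory

namespace Vale.Agent.P159.TM.H164

open Vale.Agent.P159.TM
open Vale.Agent.P159.TM.SpecC
open Vale.Agent.P159.TM.H859 (Mn)
open Vale.Agent.P159.TM.H215 (eLoc tcA Ft)
open Vale.Agent.P159.TM.H365 (AA)
open Vale.Agent.P159.TM.H783 (s2c s2c_pos gg)

/-- the inputs of `H556.num` -/
theorem sum_in {C C1 Cg c cb : ℝ} {L₀ Cb bb y n : ℝ} {K M : ℕ}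
    (hC1 : 1 ≤ C1) (hCg : 0 ≤ Cg) (hC : C = C1 + Cg + 20) (hcc0 : c ≤ H339.c0 (L₀ / 8) bb)
    (hccb : c ≤ cb / 12) (hcb : 0 < cb) (hn : 1 ≤ n) (hK : 24 ≤ K) (hM : 2 ≤ M) (hy : 0 < y)
    (h0 : B0N L₀ y K M ≤ C1 * n ^ 3 * ((K : ℝ) * M) ^ 2 * y)
    (h1 : B1N L₀ Cb cb y K M ≤ C1 * n ^ 3 * y)
    (h2 : eN L₀ Cb cb K M ≤ C1 * ((K : ℝ) * M) ^ 5 * Real.exp (-(cb / 12 * K))) :
    pbN L₀ bb K M ≤ C * (M : ℝ) ^ 2 * Real.exp (-(c * K)) ∧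
    eN L₀ Cb cb K M ≤ C * n ^ 6 * ((K : ℝ) * M) ^ 6 * Real.exp (-(c * K)) ∧
    B0N L₀ y K M ≤ C * n ^ 6 * ((K : ℝ) * M) ^ 2 * y ∧
    B1N L₀ Cb cb y K M ≤ C * n ^ 6 * y ∧
    Cg * ((K : ℝ) * M) ^ 6 * Real.exp (-(cb * K)) ≤
      C * ((K : ℝ) * M) ^ 6 * Real.exp (-(c * K)) := by
  have hK' : (24 : ℝ) ≤ K := by exact_mod_cast hK
  have hM' : (2 : ℝ) ≤ M := by exact_mod_cast hM
  have hKM : (1 : ℝ) ≤ (K : ℝ) * M := by nlinarith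
  have hCC1 : C1 ≤ C := by linarith
  have hC0 : 0 ≤ C := by linarith
  have hn6 : (1 : ℝ) ≤ n ^ 6 := one_le_pow₀ hn
  have hn36 : n ^ 3 ≤ n ^ 6 := pow_le_pow_right₀ hn (by norm_num)
  have hE : ∀ {c' : ℝ}, c ≤ c' → Real.exp (-(c' * K)) ≤ Real.exp (-(c * K)) := by
    intro c' hc'
    apply Real.exp_le_exp.2
    have : c * (K : ℝ) ≤ c' * K := mul_le_mul_of_nonneg_right hc' (by linarith)
    linarith
  refine ⟨?_, ?_, ?_, ?_, ?_⟩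
  · unfold pbN
    apply mul_le_mul _ (hE hcc0) (Real.exp_pos _).le (by positivity)
    exact mul_le_mul_of_nonneg_right (by linarith) (by positivity)
  · refine h2.trans ?_
    apply mul_le_mul _ (hE hccb) (Real.exp_pos _).le (by positivity)
    have a1 : ((K : ℝ) * M) ^ 5 ≤ ((K : ℝ) * M) ^ 6 := pow_le_pow_right₀ hKM (by norm_num)
    have a2 : C1 ≤ C * n ^ 6 := hCC1.trans (le_mul_of_one_le_right hC0 hn6)
    exact mul_le_mul a2 a1 (by positivity) (by positivity)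
  · refine h0.trans ?_
    apply mul_le_mul_of_nonneg_right _ hy.le
    apply mul_le_mul_of_nonneg_right _ (by positivity)
    exact mul_le_mul hCC1 hn36 (by positivity) hC0
  · refine h1.trans ?_
    apply mul_le_mul_of_nonneg_right _ hy.le
    exact mul_le_mul hCC1 hn36 (by positivity) hC0
  · apply mul_le_mul _ (hE (by linarith)) (Real.exp_pos _).le (by positivity)
    exact mul_le_mul_of_nonneg_right (by linarith) (by positivity)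

/-- `D m` in the form of `H556.num` -/
theorem D_num {X2 y pb e B0 B1 E C Cg g : ℝ} (hX : 0 ≤ X2) (hy : 0 ≤ y) (hpb : 0 ≤ pb)
    (hB1 : 0 ≤ B1) (hg : 0 ≤ g) (hC : 1 ≤ C) (hCg : Cg ≤ C) :
    X2 * y / 4 * pb + X2 * (e + B0 * pb + (B0 * pb + (B1 * (E - 1) + Cg * B1 * g))) ≤
      C * X2 * y * pb + X2 * (e + B0 * pb + (B0 * pb + B1 * (E - 1) + C * B1 * g)) := by
  have v2 : 0 ≤ X2 * y := mul_nonneg hX hy
  have v1 : X2 * y / 4 * pb ≤ C * X2 * y * pb := by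
    apply mul_le_mul_of_nonneg_right _ hpb
    have : 1 * (X2 * y) ≤ C * (X2 * y) := mul_le_mul_of_nonneg_right hC v2
    linarith
  have v3 : Cg * B1 * g ≤ C * B1 * g :=
    mul_le_mul_of_nonneg_right (mul_le_mul_of_nonneg_right hCg hB1) hg
  apply add_le_add v1
  apply mul_le_mul_of_nonneg_left _ hX
  linarith

theorem gg_nonneg (s : ℝ) (K M m : ℕ) : 0 ≤ gg s K M m := by
  unfold gg
  split_ifs <;> positivity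

/-- the bound of `x^m` -/
noncomputable abbrev DN (L₀ Cb cb bb y s Cg : ℝ) (K M m : ℕ) : ℝ :=
  ((K : ℝ) * M) ^ 2 * y / 4 * pbN L₀ bb K M +
      ((K : ℝ) * M) ^ 2 * (eN L₀ Cb cb K M + B0N L₀ y K M * pbN L₀ bb K M +
        (B0N L₀ y K M * pbN L₀ bb K M + (B1N L₀ Cb cb y K M *
          (Real.exp (Cg * ((K : ℝ) * M) ^ 6 * Real.exp (-(cb * K))) - 1) +
            Cg * B1N L₀ Cb cb y K M * gg s K M m)))

theorem B1N_nonneg {L₀ Cb cb y : ℝ} {K M : ℕ} (hL₀ : 0 < L₀) (hCb : 0 ≤ Cb) (hK : 24 ≤ K)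
    (hy : 0 < y) (hwK : (K : ℝ) ^ 2 * y ≤ 1 / 2) : 0 ≤ B1N L₀ Cb cb y K M := by
  have hKy : 0 < (K : ℝ) ^ 2 * y := by
    have h1 : (24 : ℝ) ≤ K := by exact_mod_cast hK
    have : (0 : ℝ) < (K : ℝ) := by linarith
    positivity
  exact add_nonneg (tcA_nonneg (rN_pos hL₀) hKy hwK) (eN_nonneg hL₀ hCb K M)

/-- numbers: everything about `y`, `K`, `M` -/
theorem num_all {L₀ Cb cb bb Cg s : ℝ} (hL₀ : 0 < L₀) (hCb : 0 ≤ Cb) (hcb : 0 < cb)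
    (hbb0 : 0 < bb) (hCg : 0 ≤ Cg) (hs : 2 < s) (X₀ : ℝ) (K₀ : ℕ) :
    ∃ k0 : ℕ, ∀ k : ℕ, k0 ≤ k → ∃ C : ℝ, 1 ≤ C ∧ ∃ p : ℕ, 1 ≤ p ∧ ∃ ys : ℝ, 0 < ys ∧
      ∀ y : ℝ, 0 < y → y ≤ ys → ∀ K M : ℕ, K = Kn k y → M = Mn p y →
        24 ≤ K ∧ 2 ≤ M ∧ K₀ ≤ K ∧ X₀ * K ≤ M ∧
        ((K : ℝ) * M) ^ 2 * y ≤ 1 / 2 ∧ (K : ℝ) ^ 2 * y ≤ 1 / 2 ∧
        C * ((K : ℝ) * M) ^ 2 * y ≤ 1 / 2 ∧ y / 4 * (K : ℝ) ^ 2 ≤ 1 / 2 ∧
        3 * (L₀ * ((K : ℝ) / 12 + 5 / 2) * eLoc K M Cb cb ((K : ℝ) / 12)) + (K : ℝ) ^ 2 * y / 2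
          ≤ (K : ℝ) ^ 2 * y ∧
        64 / 3 * Real.pi ^ 2 * ∑ m ∈ Finset.Icc 1 ((K * M) ^ 2),
          (m : ℝ) ^ 2 * (DN L₀ Cb cb bb y s Cg K M m + C * ((K : ℝ) * M) ^ 4 * y ^ 2) +
        8 * Real.pi ^ 2 * K0 * Real.exp (-((K : ℝ) * M) ^ 2) ≤ y / 4 * (K : ℝ) ^ 2 := by
  have hc0 : 0 < H339.c0 (L₀ / 8) bb := H339.c0_pos (by positivity) hbb0
  obtain ⟨c, hc⟩ : ∃ c : ℝ, c = min (H339.c0 (L₀ / 8) bb) (cb / 12) := ⟨_, rfl⟩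
  have hcpos : 0 < c := by rw [hc]; exact lt_min hc0 (by positivity)
  have hcc0 : c ≤ H339.c0 (L₀ / 8) bb := by rw [hc]; exact min_le_left _ _
  have hccb : c ≤ cb / 12 := by rw [hc]; exact min_le_right _ _
  obtain ⟨k1, hk1⟩ := H556.num hcpos
  obtain ⟨k2, hk2⟩ := nums hL₀ hCb hcb
  refine ⟨max 1 (max k1 k2), fun k hk => ?_⟩
  have hkone : 1 ≤ k := (le_max_left _ _).trans hk
  have hkk1 : k1 ≤ k := ((le_max_left _ _).trans (le_max_right _ _)).trans hk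
  have hkk2 : k2 ≤ k := ((le_max_right _ _).trans (le_max_right _ _)).trans hk
  obtain ⟨C1, hC1, hn2⟩ := hk2 k hkk2
  obtain ⟨C, hC⟩ : ∃ C : ℝ, C = C1 + Cg + 20 := ⟨_, rfl⟩
  have hC0 : 1 ≤ C := by linarith
  have ha1 : 0 ≤ 8 * Real.pi ^ 2 * K0 := mul_nonneg (by positivity) K0_nonneg
  obtain ⟨p0, hp0⟩ := hk1 k hkk1 C (64 / 3 * Real.pi ^ 2) (8 * Real.pi ^ 2 * K0) 6 s (by linarith)
    (by positivity) ha1 hs
  obtain ⟨p, hp⟩ : ∃ p : ℕ, p = max p0 2 := ⟨_, rfl⟩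
  have hp2 : 2 ≤ p := by rw [hp]; exact le_max_right _ _
  have hpp0 : p0 ≤ p := by rw [hp]; exact le_max_left _ _
  obtain ⟨y1, hy1, hy1', hn1⟩ := hp0 p hpp0
  obtain ⟨y2, hy2, hy2', hn2'⟩ := hn2 p
  obtain ⟨y3, hy3, hy3', hn3⟩ := third X₀ K₀ k p hkone hp2
  refine ⟨C, hC0, p, by omega, min y1 (min y2 y3), lt_min hy1 (lt_min hy2 hy3), ?_⟩
  intro y hy hys K M hKd hMd
  have hyy1 : y ≤ y1 := hys.trans (min_le_left _ _)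
  have hyy2 : y ≤ y2 := (hys.trans (min_le_right _ _)).trans (min_le_left _ _)
  have hyy3 : y ≤ y3 := (hys.trans (min_le_right _ _)).trans (min_le_right _ _)
  obtain ⟨q1, q2, q3⟩ := hn1 y hy hyy1 (Real.log (1 / y)) (K : ℝ) (M : ℝ) rfl (by rw [hKd])
    (by rw [hMd])
  obtain ⟨r1, r2, r3, r4, r5, r6, r7, r8⟩ := hn2' y hy hyy2 K M hKd hMd
  obtain ⟨t1, t2, t3⟩ := hn3 y hy hyy3
  rw [← hKd] at t2 t3 q3
  rw [← hMd] at t3 q3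
  obtain ⟨u1, u2, u3, u4, u5⟩ := sum_in (c := c) (bb := bb) hC1 hCg hC hcc0 hccb hcb t1 r1 r2
    hy r6 r7 r8
  have hB10 : 0 ≤ B1N L₀ Cb cb y K M := B1N_nonneg hL₀ hCb r1 hy r4
  have hpb0 : 0 ≤ pbN L₀ bb K M := by
    unfold pbN
    positivity
  refine ⟨r1, r2, t2, t3, r3, r4, q1, q2, r5, ?_⟩
  exact q3 (pbN L₀ bb K M) (eN L₀ Cb cb K M) (B0N L₀ y K M) (B1N L₀ Cb cb y K M)
    (Cg * ((K : ℝ) * M) ^ 6 * Real.exp (-(cb * K))) (gg s K M)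
    (fun m => DN L₀ Cb cb bb y s Cg K M m) hpb0 hB10 (by positivity)
    u1 u2 u3 u4 u5 (le_of_eq (if_pos rfl)) (fun m hm => le_of_eq (if_neg (by omega)))
    (fun m _ => D_num (by positivity) hy.le hpb0 hB10 (gg_nonneg s K M m) hC0 (by linarith))

/-- **part C** -/
theorem stepC {b₁ b₂ δ L₀ Cb cb : ℝ} (hb₁ : 0 ≤ b₁) (hδ : 0 < δ) (hL₀ : 0 < L₀) (hCb : 0 ≤ Cb)
    (hcb : 0 < cb) : StepC b₁ b₂ δ L₀ Cb cb := by
  obtain ⟨bb, hbb⟩ : ∃ bb : ℝ, bb = max 1 b₂ := ⟨_, rfl⟩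
  have hbb0 : 0 < bb := by rw [hbb]; exact lt_of_lt_of_le one_pos (le_max_left _ _)
  have hbb2 : b₂ ≤ bb := by rw [hbb]; exact le_max_right _ _
  obtain ⟨s, Cg, X₀, hs, hCg, hX₀, K₀, hK₀, hsh⟩ := H783.sh_Ft hδ hL₀ hCb hcb
  obtain ⟨k0, hk0⟩ := num_all (bb := bb) hL₀ hCb hcb hbb0 hCg.le hs X₀ K₀
  refine ⟨k0, fun k hk => ?_⟩
  obtain ⟨C, hC0, p, hp1, ys, hys0, hnum⟩ := hk0 k hk
  refine ⟨p, hp1, ys, max 1 (L₀ / (80 * bb)), hys0, ?_⟩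
  intro b y a ξ N _ hb1 hb2 hX hy hys ha haa hN hQ hB
  have hb : 0 ≤ b := hb₁.trans hb1
  have hξ1 : (1 : ℝ) ≤ ξ := (le_max_left _ _).trans hX
  have hξ : 0 < ξ := by exact_mod_cast (lt_of_lt_of_le one_pos hξ1)
  have hLξ : L₀ / 8 ≤ 10 * bb * ξ := by
    have h1 : L₀ / (80 * bb) ≤ ξ := (le_max_right _ _).trans hX
    rw [div_le_iff₀ (by positivity)] at h1
    linarith
  obtain ⟨K, hKd⟩ : ∃ K : ℕ, K = Kn k y := ⟨_, rfl⟩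
  obtain ⟨M, hMd⟩ : ∃ M : ℕ, M = Mn p y := ⟨_, rfl⟩
  obtain ⟨r1, r2, t2, t3, r3, r4, q1, q2, r5, hfin⟩ := hnum y hy hys K M hKd hMd
  rw [← hKd, ← hMd] at hN ⊢
  have : NeZero M := ⟨by omega⟩
  have : NeZero (K * M) := ⟨(Nat.mul_pos (by omega) (by omega)).ne'⟩
  refine step_of_num (r := ξ / 2) hb hξ (by omega) r2 hN ?_ hQ hy.le hC0 q1 q2
    (fun m => DN L₀ Cb cb bb y s Cg K M m) ?_ hfin
  · have : 24 * ξ ≤ K * ξ := Nat.mul_le_mul_right ξ r1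
    omega
  · intro m hm1 _
    exact hD_all hb (hb2.trans hbb2) hbb0 hξ r1 r2 hN hQ hy r3 r4 hL₀ hCb hcb.le hB hLξ r5 hm1
      (Φ := fun B0 B1 pb => B0 * pb + (B1 * (Real.exp (Cg * ((K : ℝ) * M) ^ 6 *
        Real.exp (-(cb * K))) - 1) + Cg * B1 * gg s K M m))
      (fun R B0 B1 pb u hR0 hR hF0 hB1 hF1 hpb =>
        hsh K M ξ (ξ / 2) N b y a hb t2 t3 hξ hN (by omega) hy.le (by rw [mul_comm]; linarith)
          ha haa hQ hB R B0 B1 pb m u hm1 hR0 hR hF0 hB1 hF1 hpb)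

end Vale.Agent.P159.TM.H164
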