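import Vale.Agent.P159.TM.H164.Bridge
import Vale.Agent.P159.TM.H339.GoodT
import Vale.Agent.P159.TM.H845.Meas
import Vale.Agent.P159.TM.H870.Tor
import Vale.Agent.P159.TM.H783.C5

/-!
P159 T1, part C, row ASMC: the coarse step (`bridge`, rows C1 and C6) on the torus in the letters
of `Spec/C`: everything except the expectations of the charged functionals `x^m`.
-/

set_option linter.unusedSectionVars false

open MeasureTheory

namespace Vale.Agent.P159.TM.H164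

open Vale.Agent.P159.TM
open Vale.Agent.P159.H353 (wI)
open Vale.Agent.P159.TM.SpecC Vale.Agent.P159.TM.H459
open Vale.Agent.P159.TM.H365 (AA)
open Vale.Agent.P159.TM.H783 (s2c s2c_pos)

noncomputable section

section inst

variable {N : ℕ} [NeZero N] {b : ℝ}

theorem wT_eq339 (b : ℝ) (N : ℕ) [NeZero N] :
    wT b N = H339.Wg (tS (N := N)) tT b := by
  funext h
  show wT b N h = ∏ e : (ZMod N × ZMod N) × Bool, wI b (h (tT e) - h (tS e))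
  rw [Fintype.prod_prod_type]
  refine Finset.prod_congr rfl fun x _ => ?_
  rw [Fintype.prod_bool]
  simp [tS, tT, dir]

/-- the weight of the torus is good -/
theorem good_T (hb : 0 ≤ b) :
    H339.Good (wT b N) (wI b 0 ^ Fintype.card ((ZMod N × ZMod N) × Bool)) := by
  rw [wT_eq339]
  exact H339.good_graph _ _ hb

end inst

section step

variable {N M K ξ r : ℕ} [NeZero N] [NeZero M] {b : ℝ}

theorem ns_AA (hNM : N = M * (K * ξ)) (hr : 2 * r < K * ξ) (G : Tor M → ℝ) :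
    H339.ns (H845.AAl N (n := M) (K * ξ) r G) ≤ ((K * ξ : ℕ) : ℝ) ^ 2 * H339.ns G := by
  unfold H339.ns
  exact H365.sq_le hNM hr G

theorem tr_AA_one (hNM : N = M * (K * ξ)) (hr : 2 * r < K * ξ) :
    H339.tr (H845.AAl N (n := M) (K * ξ) r) (fun _ => 1) =
      fun _ => ((K * ξ : ℕ) : ℝ) ^ 2 := by
  funext u
  show (H845.AAl N (n := M) (K * ξ) r (Pi.single u 1)) ⬝ᵥ (fun _ => (1 : ℝ)) = _
  have h1 : (H845.AAl N (n := M) (K * ξ) r (Pi.single u 1)) =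
      fun x : Tor N => H365.phi (K * ξ) r u x := by
    funext x
    show ∑ v, (Pi.single u (1 : ℝ) : Tor M → ℝ) v * H365.phi (K * ξ) r v x = _
    rw [Finset.sum_eq_single u]
    · rw [Pi.single_eq_same, one_mul]
    · intro v _ hv
      rw [Pi.single_eq_of_ne hv, zero_mul]
    · intro h
      exact absurd (Finset.mem_univ _) h
  rw [h1]
  simp only [dotProduct, mul_one]
  exact H365.sum_phi_x hNM hr u

/-- **the coarse step on the torus**: rows C1 and C6 of part C; the only input left is the bound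
`hD` for the expectations of the charged functionals. -/
theorem step_of_hD (hb : 0 ≤ b) (hξ : 0 < ξ) (hK : 0 < K) (hM : 2 ≤ M)
    (hN : N = K * M * ξ) (hr : 2 * r < K * ξ) {y a : ℝ} (hQ : QU (wT b N) ξ y a)
    (hy : 0 ≤ y) (hw : (K * M : ℝ) ^ 2 * y ≤ 2) (D : ℕ → ℝ)
    (hD : ∀ m : ℕ, 1 ≤ m → m ≤ (K * M) ^ 2 →
      ‖∫ G : Tor M → ℝ, H215.xm (H104.U (wT b N) (ms ξ)) (m : ℤ) (AA (K * ξ) r G) *
        (H845.rho (wT b N) (ms ξ) (AA (K * ξ) r) (s2c M K) G : ℂ)‖ ≤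
      D m * ∫ G : Tor M → ℝ, H845.rho (wT b N) (ms ξ) (AA (K * ξ) r) (s2c M K) G)
    (hR : 8 / 3 * ∑ m ∈ Finset.Icc 1 ((K * M) ^ 2),
        (m : ℝ) ^ 2 * (D m + ((K * M : ℝ) ^ 2 * y / 4) ^ 2) +
      K0 * Real.exp (-(Real.pi ^ 2 * (K * M : ℝ) ^ 2)) ≤ 1 / 2) :
    H104.ddU (wT b N) (ms ((M : ℝ) * ξ)) 0 (fun _ => 1) (fun _ => 1) ≤
      8 * Real.pi ^ 2 * (8 / 3 * ∑ m ∈ Finset.Icc 1 ((K * M) ^ 2),
        (m : ℝ) ^ 2 * (D m + ((K * M : ℝ) ^ 2 * y / 4) ^ 2) +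
      K0 * Real.exp (-(Real.pi ^ 2 * (K * M : ℝ) ^ 2))) := by
  have hξ' : (0 : ℝ) < ξ := by exact_mod_cast hξ
  have hK' : (0 : ℝ) < K := by exact_mod_cast hK
  have hM' : (2 : ℝ) ≤ M := by exact_mod_cast hM
  have hM0 : (0 : ℝ) < M := by linarith
  have hNM : N = M * (K * ξ) := by rw [hN]; ring
  have hs2 : 0 < s2c M K := s2c_pos hM hK
  have hε : (0 : ℝ) < 1 / (ξ : ℝ) ^ 2 := by positivity
  obtain ⟨R, hR'⟩ := H339.exists_CC (H845.AAl N (n := M) (K * ξ) r) hε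
    (show (0 : ℝ) < 1 / s2c M K by positivity)
  have hl : (0 : ℝ) < ((K * ξ : ℕ) : ℝ) ^ 2 := by
    have : 0 < K * ξ := Nat.mul_pos hK hξ
    positivity
  have hm : ∀ x : Tor N, 0 < ms (N := N) (ξ : ℝ) x := fun _ => hε
  have hW := H870.wt_T (N := N) hb
  have hs := fun h => H870.shift_T (N := N) (b := b) h
  have hev := fun h => H870.even_T (N := N) hb h
  have hG := H870.gin_T (N := N) hb hm
  have hkap : H871.kap (wT b N) (ms ξ) ≤ (K * M : ℝ) ^ 2 * y := by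
    refine (H870.kap_le hQ).trans (le_of_eq ?_)
    rw [hN]
    push_cast
    field_simp
  have hcard : (1 / (ξ : ℝ) ^ 2) * (Fintype.card (Tor N) : ℝ) = (K * M : ℝ) ^ 2 := by
    rw [Fintype.card_prod, ZMod.card, hN]
    push_cast
    field_simp
  have hpi : (1 : ℝ) ≤ Real.pi ^ 2 := by
    have := Real.pi_gt_three
    nlinarith
  have hKM : (0 : ℝ) < (K * M : ℝ) ^ 2 := by positivity
  have key := bridge (V := Tor N) (C := Tor M) (ε := 1 / (ξ : ℝ) ^ 2) (s2 := s2c M K) hs2 hR'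
    (K := ((K * ξ : ℕ) : ℝ) ^ 2) hl (ns_AA hNM hr)
    (by
      funext x
      exact H365.AA_const 1 x) (tr_AA_one hNM hr) (good_T (N := N) hb) hs hev
    (w0 := (K * M : ℝ) ^ 2 * y / 4) (by positivity) (by linarith) (by
      intro g c c'
      have h := H871.osc_kap hW hm hs hev hG g c c'
      refine h.trans ?_
      linarith) ((K * M) ^ 2) (by
      rw [hcard]
      push_cast
      nlinarith) D (fun m h1 h2 => hD m h1 h2) (by
      rw [hcard]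
      have e1 : Real.pi ^ 2 * (((K * M) ^ 2 : ℕ) : ℝ) ^ 2 / (K * M : ℝ) ^ 2 =
          Real.pi ^ 2 * (K * M : ℝ) ^ 2 := by
        push_cast
        field_simp
      rw [e1]
      exact hR)
  rw [hcard] at key
  have e1 : Real.pi ^ 2 * (((K * M) ^ 2 : ℕ) : ℝ) ^ 2 / (K * M : ℝ) ^ 2 =
      Real.pi ^ 2 * (K * M : ℝ) ^ 2 := by
    push_cast
    field_simp
  rw [e1] at key
  have e2 : (fun _ : Tor N => 1 / (ξ : ℝ) ^ 2 * (1 / s2c M K) /
      (1 / (ξ : ℝ) ^ 2 * ((K * ξ : ℕ) : ℝ) ^ 2 + 1 / s2c M K)) = ms ((M : ℝ) * ξ) := by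
    funext x
    unfold ms s2c
    have h3 : 0 < (M : ℝ) ^ 2 - 1 := by nlinarith
    push_cast
    field_simp
    ring
  rw [e2] at key
  exact key

/-- the same with the numerical conclusion of `H556.num` as hypothesis -/
theorem step_of_num (hb : 0 ≤ b) (hξ : 0 < ξ) (hK : 0 < K) (hM : 2 ≤ M)
    (hN : N = K * M * ξ) (hr : 2 * r < K * ξ) {y a : ℝ} (hQ : QU (wT b N) ξ y a)
    (hy : 0 ≤ y) {C : ℝ} (hC : 1 ≤ C) (hw : C * (K * M : ℝ) ^ 2 * y ≤ 1 / 2)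
    (hyK : y / 4 * (K : ℝ) ^ 2 ≤ 1 / 2) (D : ℕ → ℝ)
    (hD : ∀ m : ℕ, 1 ≤ m → m ≤ (K * M) ^ 2 →
      ‖∫ G : Tor M → ℝ, H215.xm (H104.U (wT b N) (ms ξ)) (m : ℤ) (AA (K * ξ) r G) *
        (H845.rho (wT b N) (ms ξ) (AA (K * ξ) r) (s2c M K) G : ℂ)‖ ≤
      D m * ∫ G : Tor M → ℝ, H845.rho (wT b N) (ms ξ) (AA (K * ξ) r) (s2c M K) G)
    (hR : 64 / 3 * Real.pi ^ 2 * ∑ m ∈ Finset.Icc 1 ((K * M) ^ 2),
        (m : ℝ) ^ 2 * (D m + C * (K * M : ℝ) ^ 4 * y ^ 2) +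
      8 * Real.pi ^ 2 * K0 * Real.exp (-(K * M : ℝ) ^ 2) ≤ y / 4 * (K : ℝ) ^ 2) :
    H104.ddU (wT b N) (ms ((M : ℝ) * ξ)) 0 (fun _ => 1) (fun _ => 1) ≤
      y / 4 * (K : ℝ) ^ 2 := by
  have hK' : (0 : ℝ) < K := by exact_mod_cast hK
  have hM' : (2 : ℝ) ≤ M := by exact_mod_cast hM
  have hM0 : (0 : ℝ) < M := by linarith
  have hKM : (0 : ℝ) < (K * M : ℝ) ^ 2 := by positivity
  have hpi : (9 : ℝ) ≤ Real.pi ^ 2 := by
    have := Real.pi_gt_three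
    nlinarith
  have h0 := K0_nonneg
  have hle : 8 * Real.pi ^ 2 * (8 / 3 * ∑ m ∈ Finset.Icc 1 ((K * M) ^ 2),
        (m : ℝ) ^ 2 * (D m + ((K * M : ℝ) ^ 2 * y / 4) ^ 2) +
      K0 * Real.exp (-(Real.pi ^ 2 * (K * M : ℝ) ^ 2))) ≤
      64 / 3 * Real.pi ^ 2 * ∑ m ∈ Finset.Icc 1 ((K * M) ^ 2),
        (m : ℝ) ^ 2 * (D m + C * (K * M : ℝ) ^ 4 * y ^ 2) +
      8 * Real.pi ^ 2 * K0 * Real.exp (-(K * M : ℝ) ^ 2) := by
    have h1 : ∑ m ∈ Finset.Icc 1 ((K * M) ^ 2),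
        (m : ℝ) ^ 2 * (D m + ((K * M : ℝ) ^ 2 * y / 4) ^ 2) ≤
        ∑ m ∈ Finset.Icc 1 ((K * M) ^ 2),
        (m : ℝ) ^ 2 * (D m + C * (K * M : ℝ) ^ 4 * y ^ 2) := by
      refine Finset.sum_le_sum fun m _ => mul_le_mul_of_nonneg_left ?_ (sq_nonneg _)
      have h2 : ((K * M : ℝ) ^ 2 * y / 4) ^ 2 = 1 / 16 * ((K * M : ℝ) ^ 4 * y ^ 2) := by ring
      have h3 : 0 ≤ (K * M : ℝ) ^ 4 * y ^ 2 := by positivity
      rw [h2]
      nlinarith
    have h2 : Real.exp (-(Real.pi ^ 2 * (K * M : ℝ) ^ 2)) ≤ Real.exp (-(K * M : ℝ) ^ 2) := by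
      refine Real.exp_le_exp.2 ?_
      nlinarith
    have h3 := mul_le_mul_of_nonneg_left h1 (show (0 : ℝ) ≤ 64 / 3 * Real.pi ^ 2 by positivity)
    have h4 := mul_le_mul_of_nonneg_left h2 (show (0 : ℝ) ≤ 8 * Real.pi ^ 2 * K0 by positivity)
    calc _ = 64 / 3 * Real.pi ^ 2 * ∑ m ∈ Finset.Icc 1 ((K * M) ^ 2),
        (m : ℝ) ^ 2 * (D m + ((K * M : ℝ) ^ 2 * y / 4) ^ 2) +
        8 * Real.pi ^ 2 * K0 * Real.exp (-(Real.pi ^ 2 * (K * M : ℝ) ^ 2)) := by ring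
      _ ≤ _ := add_le_add h3 h4
  refine (step_of_hD hb hξ hK hM hN hr hQ hy ?_ D hD ?_).trans (hle.trans hR)
  · have h5 : (K * M : ℝ) ^ 2 * y ≤ C * (K * M : ℝ) ^ 2 * y := by
      rw [mul_assoc C]
      exact le_mul_of_one_le_left (by positivity) hC
    linarith
  · have h6 := hle.trans hR
    have h7 : 8 * Real.pi ^ 2 * (8 / 3 * ∑ m ∈ Finset.Icc 1 ((K * M) ^ 2),
        (m : ℝ) ^ 2 * (D m + ((K * M : ℝ) ^ 2 * y / 4) ^ 2) +
      K0 * Real.exp (-(Real.pi ^ 2 * (K * M : ℝ) ^ 2))) ≤ 1 / 2 := h6.trans hyK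
    by_contra hcon
    rw [not_le] at hcon
    nlinarith

end step

end

end Vale.Agent.P159.TM.H164
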