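import Vale.Agent.P159.TM.H907.Split
import Vale.Agent.P159.TM.H845.Meas
import Vale.Agent.P159.TM.H215.Final
import Vale.Agent.P159.TM.H870.Tor

/-!
P159 T1, part C, row ASMC: the expectation of the charge `m` part `x^m` from the shell lemma for
the clamped functionals `Ft` (C5) and the probability of the exceptional set (BAD).
-/

set_option linter.unusedSectionVars false

open MeasureTheory

namespace Vale.Agent.P159.TM.H164

open Vale.Agent.P159.TM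
open Vale.Agent.P159.H353 (wI)
open Vale.Agent.P159.TM.SpecC
open Vale.Agent.P159.TM.H365 (AA)

noncomputable section

section block

variable {N M K ξ r : ℕ} [NeZero N] [NeZero M] [NeZero (K * M)] {b : ℝ}

/-- **block B** of the assembly of part C -/
theorem hD_of (hb : 0 ≤ b) (hξ : 0 < ξ) (hK : 0 < K) (hN : N = K * M * ξ) {y a s2 : ℝ}
    (hs2 : 0 < s2) (hQ : QU (wT b N) ξ y a) (hy : 0 ≤ y) (hw : (K * M : ℝ) ^ 2 * y ≤ 1)
    {L₀ Cb cb R : ℝ} (hL₀ : 0 < L₀) (hCb : 0 ≤ Cb) (hcb : 0 ≤ cb)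
    (hB : BOut (wT b N) ξ (L₀ / ξ) Cb cb) (hR : 2 ≤ R) {ρ δ : ℝ} (hρ0 : 0 < ρ)
    (hρ2 : ρ ≤ Real.exp (-1)) (hδ0 : 0 < δ) (hδ1 : δ ≤ 1 / 2)
    (hδ : (K * M : ℝ) ^ 2 * y / 2 ≤ δ) {m : ℕ} (hm1 : 1 ≤ m) {Sh pb : ℝ}
    {S : Set (Tor M → ℝ)} (hSm : MeasurableSet S)
    (hS : ∀ G ∈ S, LipT (L₀ / (4 * ξ)) (AA (N := N) (K * ξ) r G))
    (hsh : ∀ u : Tor (K * M), ‖∫ G : Tor M → ℝ,
      H215.Ft (wT b N) ξ L₀ R (m : ℤ) u (AA (K * ξ) r G) *
        (H845.rho (wT b N) (ms ξ) (AA (K * ξ) r) s2 G : ℂ)‖ ≤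
      Sh * ∫ G : Tor M → ℝ, H845.rho (wT b N) (ms ξ) (AA (K * ξ) r) s2 G)
    (hbad : ∫ G in Sᶜ, H845.rho (wT b N) (ms ξ) (AA (N := N) (K * ξ) r) s2 G ≤
      pb * ∫ G : Tor M → ℝ, H845.rho (wT b N) (ms ξ) (AA (K * ξ) r) s2 G) :
    ‖∫ G : Tor M → ℝ, H215.xm (H104.U (wT b N) (ms ξ)) (m : ℤ) (AA (K * ξ) r G) *
        (H845.rho (wT b N) (ms ξ) (AA (K * ξ) r) s2 G : ℂ)‖ ≤
      ((K * M : ℝ) ^ 2 * y / 4 * pb + (K * M : ℝ) ^ 2 *
        (L₀ * K * M * H215.eLoc K M Cb cb R + H215.tcA ρ δ * pb + Sh)) *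
      ∫ G : Tor M → ℝ, H845.rho (wT b N) (ms ξ) (AA (K * ξ) r) s2 G := by
  have hξ' : (0 : ℝ) < ξ := by exact_mod_cast hξ
  have hK' : (0 : ℝ) < K := by exact_mod_cast hK
  have hM : 0 < M := Nat.pos_of_ne_zero (NeZero.ne M)
  have hM' : (0 : ℝ) < M := by exact_mod_cast hM
  have hk : (m : ℤ) ≠ 0 := by exact_mod_cast (by omega : m ≠ 0)
  have hkr : (1 : ℝ) ≤ |((m : ℤ) : ℝ)| := by
    rw [Int.cast_natCast, abs_of_nonneg (by positivity)]
    exact_mod_cast hm1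
  have hpi := Real.pi_gt_three
  have hden : (1 : ℝ) ≤ 2 * Real.pi * |((m : ℤ) : ℝ)| := by nlinarith
  have hm : ∀ x : Tor N, 0 < ms (N := N) (ξ : ℝ) x := by
    intro x
    unfold ms
    positivity
  have hW := H870.wt_T (N := N) hb
  have hSu := H870.sup_T (N := N) hb
  have hs := fun h => H870.shift_T (N := N) (b := b) h
  have hev := fun h => H870.even_T (N := N) hb h
  have hG := H870.gin_T (N := N) hb hm
  have hkap : H871.kap (wT b N) (ms ξ) ≤ (K * M : ℝ) ^ 2 * y := by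
    refine (H870.kap_le hQ).trans (le_of_eq ?_)
    rw [hN]
    push_cast
    field_simp
  have hA : Continuous fun G : Tor M → ℝ => AA (N := N) (K * ξ) r G := H845.AA_cont
  have hρi := H845.rho_int (C := Tor M) hW hm hG hA hs2
  have he0 : 0 ≤ H215.eLoc K M Cb cb R := by
    unfold H215.eLoc
    positivity
  have hlog : 0 ≤ Real.log (5 / (2 * δ)) := by
    apply Real.log_nonneg
    rw [le_div_iff₀ (by positivity)]
    linarith
  have htc0 : 0 ≤ H215.tcA ρ δ := by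
    unfold H215.tcA
    positivity
  have key := H907.split_le (μ := (volume : Measure (Tor M → ℝ)))
    (ρ := fun G => H845.rho (wT b N) (ms ξ) (AA (N := N) (K * ξ) r) s2 G)
    (fun G => (H845.rho_pos _ _ _ _ _).le) hρi hSm
    (X := fun G => H215.xm (H104.U (wT b N) (ms ξ)) (m : ℤ) (AA (K * ξ) r G))
    (x := fun (u : Tor (K * M)) G =>
      H215.xb (H215.Dg (wT b N) (ms ξ)) (m : ℤ) (H365.phi ξ 0 u) (AA (K * ξ) r G))
    (F := fun (u : Tor (K * M)) G => H215.Ft (wT b N) ξ L₀ R (m : ℤ) u (AA (K * ξ) r G))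
    (fun G => (H215.xm_eq_sum hξ hW hs hk _).symm)
    (fun u => ?_) (fun u => ?_)
    (W₀ := (K * M : ℝ) ^ 2 * y / 4) (B₀ := H215.tcA ρ δ)
    (e := L₀ * K * M * H215.eLoc K M Cb cb R) (s := Sh) (p := pb)
    (fun G => ?_) (fun u G => ?_) (fun u G hG' => ?_) (fun u => hsh u) hbad
    (by positivity) htc0 (by positivity)
  · refine key.trans (le_of_eq ?_)
    rw [Fintype.card_prod, ZMod.card]
    push_cast
    ring
  · obtain ⟨Wb, hwb⟩ := hW.bdd
    have hc := H215.continuous_Dg hm hW.nonneg hwb hW.pos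
    exact ((H215.xb_cont hc (m : ℤ) (H365.phi ξ 0 u)).comp hA).measurable
  · obtain ⟨Wb, hwb⟩ := hW.bdd
    have hc := H215.continuous_Dg hm hW.nonneg hwb hW.pos
    exact (H845.Ft_cont hc (m : ℤ) (H365.phi ξ 0 u) (L₀ / (4 * ξ))
      (fun z => H859.tn (z - H365.node2 N ξ u)) (H365.node2 N ξ u) (L₀ * (R + 2) / 2)
      hA).measurable
  · refine H215.xm_norm_le (H104.cont_U hW hm) hk (a := H104.U (wT b N) (ms ξ)
      (fun x => AA (K * ξ) r G x + 0)) ?_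
    intro c _
    refine (H871.osc_kap hW hm hs hev hG (AA (K * ξ) r G) c 0).trans ?_
    linarith
  · refine (H215.Ft_any (n := K * M) hN hξ hW hs hSu hev hG hρ0 hρ2 (hkap.trans hw) hδ0 hδ1
      (by linarith) u _ hk).trans ?_
    exact div_le_self htc0 hden
  · refine (H215.Ft_near hN hξ hW hSu hL₀ hCb hcb hB hR u (hS G hG') hk).trans ?_
    exact div_le_self (by positivity) hden

end block

end

end Vale.Agent.P159.TM.H164
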