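import Vale.Agent.P159.TM.H556.Num
import Vale.Agent.P159.TM.H215.Final

/-!
P159 T1, part C, row ASMC: the numbers `B₀`, `B₁`, `e` (from `tcA` and `eLoc` of 215) in the form
used by `H556.num`.
-/

set_option linter.unusedSectionVars false

namespace Vale.Agent.P159.TM.H164

open Vale.Agent.P159.TM
open Vale.Agent.P159.TM.SpecC
open Vale.Agent.P159.TM.H859 (Mn)
open Vale.Agent.P159.TM.H215 (eLoc tcA)
open Real

theorem eLoc_eq (K M : ℕ) (Cb cb : ℝ) :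
    eLoc K M Cb cb ((K : ℝ) / 12) =
      Cb * exp (2 * cb) * ((K : ℝ) * M) ^ 4 * exp (-(cb / 12 * K)) := by
  unfold eLoc
  have h : -(cb * ((K : ℝ) / 12 - 2)) = 2 * cb + -(cb / 12 * K) := by ring
  rw [h, Real.exp_add]
  push_cast
  ring

theorem exp2_ge : (5 : ℝ) ≤ exp 2 := by
  have h4 : (2.7182818283 : ℝ) < exp 1 := Real.exp_one_gt_d9
  have h5 : exp 2 = exp 1 * exp 1 := by
    rw [← Real.exp_add]
    norm_num
  rw [h5]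
  nlinarith

theorem tcA_le {ρ δ n z : ℝ} (hρ : 0 < ρ) (hδ : 0 < δ) (hn : 1 ≤ n) (hz : 0 < z)
    (hzn : 1 / z ≤ exp n) (hδz : z ≤ 2 * δ) : tcA ρ δ ≤ exp 2 * (4 * n) * (2 * δ) / ρ := by
  unfold tcA
  have h1 : log (5 / (2 * δ)) ≤ 2 + n := by
    have h2 : 5 / (2 * δ) ≤ exp (2 + n) := by
      rw [Real.exp_add]
      calc 5 / (2 * δ) ≤ 5 / z := div_le_div_of_nonneg_left (by norm_num) hz hδz
        _ = 5 * (1 / z) := by ring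
        _ ≤ exp 2 * exp n := mul_le_mul exp2_ge hzn (by positivity) (exp_pos _).le
    calc log (5 / (2 * δ)) ≤ log (exp (2 + n)) :=
          Real.log_le_log (by positivity) h2
      _ = 2 + n := Real.log_exp _
  apply div_le_div_of_nonneg_right _ hρ.le
  apply mul_le_mul_of_nonneg_right _ (by positivity)
  apply mul_le_mul_of_nonneg_left _ (exp_pos _).le
  linarith

theorem nB0 {ρ n y X C k : ℝ} (hρ : 0 < ρ) (hn : 1 ≤ n) (hy : 0 < y) (hyn : y = exp (-n))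
    (hX : 1 ≤ X) (hk : 1 ≤ k) (hC : 8 * exp 2 * k / ρ ≤ C) :
    tcA ρ (X ^ 2 * y / 2) ≤ C * n ^ 3 * X ^ 2 * y := by
  have hyinv : 1 / y ≤ exp n := by
    rw [hyn, Real.exp_neg, one_div, inv_inv]
  have hX2 : 1 ≤ X ^ 2 := one_le_pow₀ hX
  have hX2y : y ≤ X ^ 2 * y := le_mul_of_one_le_left hy.le hX2
  have h1 := tcA_le (ρ := ρ) (δ := X ^ 2 * y / 2) (n := n) (z := y) hρ
    (by positivity) hn hy hyinv (by linarith)
  refine h1.trans ?_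
  have h2 : exp 2 * (4 * n) * (2 * (X ^ 2 * y / 2)) / ρ =
      (4 * exp 2 / ρ) * n * (X ^ 2 * y) := by
    field_simp
  rw [h2]
  have hn3 : n ≤ n ^ 3 := by
    calc n = n ^ 1 := (pow_one n).symm
      _ ≤ n ^ 3 := pow_le_pow_right₀ hn (by norm_num)
  have he : 0 < exp 2 := exp_pos 2
  have h3 : 4 * exp 2 / ρ ≤ C := by
    refine le_trans ?_ hC
    apply div_le_div_of_nonneg_right _ hρ.le
    calc 4 * exp 2 ≤ 8 * exp 2 * 1 := by linarith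
      _ ≤ 8 * exp 2 * k := mul_le_mul_of_nonneg_left hk (by positivity)
  have hC0 : 0 ≤ C := le_trans (by positivity) h3
  have h4 : (4 * exp 2 / ρ) * n ≤ C * n ^ 3 :=
    mul_le_mul h3 hn3 (by linarith) hC0
  calc (4 * exp 2 / ρ) * n * (X ^ 2 * y)
      ≤ C * n ^ 3 * (X ^ 2 * y) :=
        mul_le_mul_of_nonneg_right h4 (by positivity)
    _ = _ := by ring

theorem nB1 {ρ n y K C k e : ℝ} (hρ : 0 < ρ) (hn : 1 ≤ n) (hy : 0 < y) (hyn : y = exp (-n))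
    (hK : 1 ≤ K) (hKn : K ≤ k * n) (hk : 0 ≤ k) (he : e ≤ y)
    (hC : 8 * exp 2 * k ^ 2 / ρ + 1 ≤ C) :
    tcA ρ (K ^ 2 * y) + e ≤ C * n ^ 3 * y := by
  have hyinv : 1 / y ≤ exp n := by
    rw [hyn, Real.exp_neg, one_div, inv_inv]
  have hX2 : 1 ≤ K ^ 2 := one_le_pow₀ hK
  have hX2y : y ≤ K ^ 2 * y := le_mul_of_one_le_left hy.le hX2
  have h1 := tcA_le (ρ := ρ) (δ := K ^ 2 * y) (n := n) (z := y) hρ
    (by positivity) hn hy hyinv (by linarith)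
  have h2 : exp 2 * (4 * n) * (2 * (K ^ 2 * y)) / ρ =
      (8 * exp 2 / ρ) * n * (K ^ 2 * y) := by
    field_simp
    ring
  rw [h2] at h1
  have h5 : K ^ 2 ≤ k ^ 2 * n ^ 2 := by
    calc K ^ 2 ≤ (k * n) ^ 2 := pow_le_pow_left₀ (by linarith) hKn 2
      _ = _ := by ring
  have he2 : 0 < exp 2 := exp_pos 2
  have h6 : (8 * exp 2 / ρ) * n * (K ^ 2 * y) ≤ 8 * exp 2 * k ^ 2 / ρ * n ^ 3 * y := by
    calc (8 * exp 2 / ρ) * n * (K ^ 2 * y)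
        ≤ (8 * exp 2 / ρ) * n * (k ^ 2 * n ^ 2 * y) := by
          apply mul_le_mul_of_nonneg_left _ (by positivity)
          exact mul_le_mul_of_nonneg_right h5 hy.le
      _ = 8 * exp 2 * k ^ 2 / ρ * n ^ 3 * y := by ring
  have h7 : y ≤ n ^ 3 * y := le_mul_of_one_le_left hy.le (one_le_pow₀ hn)
  calc tcA ρ (K ^ 2 * y) + e ≤ 8 * exp 2 * k ^ 2 / ρ * n ^ 3 * y + n ^ 3 * y := by linarith
    _ = (8 * exp 2 * k ^ 2 / ρ + 1) * (n ^ 3 * y) := by ring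
    _ ≤ C * (n ^ 3 * y) := mul_le_mul_of_nonneg_right hC (by positivity)
    _ = C * n ^ 3 * y := by ring

theorem nE {A a n X c K y : ℝ} {q : ℕ} (hA : 0 ≤ A) (hn : 1 ≤ n) (hX0 : 0 ≤ X)
    (hX : X ≤ a * n ^ q) (ha : 0 ≤ a) (hcK : 2 * n ≤ c * K) (hyn : y = exp (-n))
    (hp : A * a ^ 5 * n ^ (5 * q) * exp (-n) ≤ 1) : A * X ^ 5 * exp (-(c * K)) ≤ y := by
  have hexp : exp (-(c * K)) ≤ exp (-n) * exp (-n) := by
    rw [← Real.exp_add]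
    apply Real.exp_le_exp.2
    linarith
  have h1 : X ^ 5 ≤ a ^ 5 * n ^ (5 * q) := by
    calc X ^ 5 ≤ (a * n ^ q) ^ 5 := pow_le_pow_left₀ hX0 hX 5
      _ = a ^ 5 * n ^ (5 * q) := by rw [mul_pow, ← pow_mul, mul_comm q 5]
  calc A * X ^ 5 * exp (-(c * K))
      ≤ A * (a ^ 5 * n ^ (5 * q)) * (exp (-n) * exp (-n)) := by
        apply mul_le_mul (mul_le_mul_of_nonneg_left h1 hA) hexp (exp_pos _).le
        positivity
    _ = (A * a ^ 5 * n ^ (5 * q) * exp (-n)) * exp (-n) := by ring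
    _ ≤ 1 * exp (-n) := mul_le_mul_of_nonneg_right hp (exp_pos _).le
    _ = y := by rw [one_mul, hyn]

theorem nS {a n X y : ℝ} {q : ℕ} (hX0 : 0 ≤ X) (hX : X ≤ a * n ^ q) (hyn : y = exp (-n))
    (hp : a ^ 2 * n ^ (2 * q) * exp (-n) ≤ 1 / 2) : X ^ 2 * y ≤ 1 / 2 := by
  have h1 : X ^ 2 ≤ a ^ 2 * n ^ (2 * q) := by
    calc X ^ 2 ≤ (a * n ^ q) ^ 2 := pow_le_pow_left₀ hX0 hX 2
      _ = a ^ 2 * n ^ (2 * q) := by rw [mul_pow, ← pow_mul, mul_comm q 2]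
  rw [hyn]
  exact (mul_le_mul_of_nonneg_right h1 (exp_pos _).le).trans hp

theorem nD {L₀ K M E y : ℝ} (hL₀ : 0 < L₀) (hK : 24 ≤ K) (hM : 2 ≤ M) (hE : 0 ≤ E)
    (he : L₀ * K * M * E ≤ y) (hy : 0 < y) :
    3 * (L₀ * (K / 12 + 5 / 2) * E) + K ^ 2 * y / 2 ≤ K ^ 2 * y := by
  have hKM2 : K ≤ K * M := le_mul_of_one_le_right (by linarith) (by linarith)
  have h1 : L₀ * (K / 12 + 5 / 2) * E ≤ L₀ * K * M * E := by
    apply mul_le_mul_of_nonneg_right _ hE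
    rw [mul_assoc L₀]
    apply mul_le_mul_of_nonneg_left _ hL₀.le
    linarith
  have h2 : (576 : ℝ) ≤ K ^ 2 := by
    calc (576 : ℝ) = 24 ^ 2 := by norm_num
      _ ≤ K ^ 2 := pow_le_pow_left₀ (by norm_num) hK 2
  have h3 : 576 * y ≤ K ^ 2 * y := mul_le_mul_of_nonneg_right h2 hy.le
  linarith

/-- the numbers of 215's bounds at `K = Kn k y`, `M = Mn p y`, `R = K / 12` -/
theorem nums {L₀ Cb cb : ℝ} (hL₀ : 0 < L₀) (hCb : 0 ≤ Cb) (hcb : 0 < cb) :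
    ∃ k0 : ℕ, ∀ k : ℕ, k0 ≤ k → ∃ C : ℝ, 1 ≤ C ∧ ∀ p : ℕ, ∃ ys : ℝ, 0 < ys ∧ ys < 1 ∧
      ∀ y : ℝ, 0 < y → y ≤ ys → ∀ K M : ℕ, K = Kn k y → M = Mn p y →
        24 ≤ K ∧ 2 ≤ M ∧ ((K : ℝ) * M) ^ 2 * y ≤ 1 / 2 ∧ (K : ℝ) ^ 2 * y ≤ 1 / 2 ∧
        3 * (L₀ * ((K : ℝ) / 12 + 5 / 2) * eLoc K M Cb cb ((K : ℝ) / 12)) + (K : ℝ) ^ 2 * y / 2
          ≤ (K : ℝ) ^ 2 * y ∧
        tcA (min (L₀ / 8) (exp (-1))) (((K : ℝ) * M) ^ 2 * y / 2)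
          ≤ C * log (1 / y) ^ 3 * ((K : ℝ) * M) ^ 2 * y ∧
        tcA (min (L₀ / 8) (exp (-1))) ((K : ℝ) ^ 2 * y) + L₀ * K * M * eLoc K M Cb cb ((K : ℝ) / 12)
          ≤ C * log (1 / y) ^ 3 * y ∧
        L₀ * K * M * eLoc K M Cb cb ((K : ℝ) / 12)
          ≤ C * ((K : ℝ) * M) ^ 5 * exp (-(cb / 12 * K)) := by
  refine ⟨⌈24 / cb⌉₊ + 24, fun k hk => ?_⟩
  have hk24 : (24 : ℝ) ≤ k := by exact_mod_cast (by omega : 24 ≤ k)
  have hck : 24 ≤ cb * k := by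
    have h1 : (⌈24 / cb⌉₊ : ℝ) ≤ k := by exact_mod_cast (by omega : ⌈24 / cb⌉₊ ≤ k)
    have h2 : 24 / cb ≤ k := (Nat.le_ceil _).trans h1
    rw [div_le_iff₀ hcb] at h2
    linarith
  obtain ⟨ρ, hρ⟩ : ∃ ρ : ℝ, ρ = min (L₀ / 8) (exp (-1)) := ⟨_, rfl⟩
  have hρ0 : 0 < ρ := by
    rw [hρ]
    exact lt_min (by positivity) (exp_pos _)
  obtain ⟨A, hA⟩ : ∃ A : ℝ, A = L₀ * (Cb * exp (2 * cb)) := ⟨_, rfl⟩
  have hA0 : 0 ≤ A := by
    rw [hA]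
    positivity
  have hK2 : 0 ≤ 8 * exp 2 * ((k : ℝ) + 2) ^ 2 / ρ := by positivity
  refine ⟨8 * exp 2 * ((k : ℝ) + 2) ^ 2 / ρ + 1 + A, by linarith, fun p => ?_⟩
  obtain ⟨a, ha⟩ : ∃ a : ℝ, a = 3 * ((k : ℝ) + 2) := ⟨_, rfl⟩
  have ha0 : 0 ≤ a := by rw [ha]; positivity
  obtain ⟨n1, hn1, hp1⟩ := H556.poly_exp (A * a ^ 5) (5 * (p + 1)) one_pos
  obtain ⟨n2, hn2, hp2⟩ := H556.poly_exp (a ^ 2) (2 * (p + 1)) (one_half_pos)
  have hmax : 1 ≤ max n1 n2 := hn1.trans (le_max_left _ _)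
  refine ⟨exp (-(max n1 n2)), exp_pos _, ?_, ?_⟩
  · rw [Real.exp_lt_one_iff]
    linarith
  intro y hy hys K M hK hM
  obtain ⟨n, hn⟩ : ∃ n : ℝ, n = log (1 / y) := ⟨_, rfl⟩
  have hyn : y = exp (-n) := by
    rw [hn, one_div, Real.log_inv, neg_neg, Real.exp_log hy]
  have hnN : max n1 n2 ≤ n := by
    have h1 : exp (-n) ≤ exp (-(max n1 n2)) := by rw [← hyn]; exact hys
    have := Real.exp_le_exp.1 h1
    linarith
  have hnn1 : n1 ≤ n := (le_max_left _ _).trans hnN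
  have hnn2 : n2 ≤ n := (le_max_right _ _).trans hnN
  have hn1' : 1 ≤ n := hn1.trans hnn1
  have hy1 : y ≤ 1 := by
    rw [hyn, Real.exp_le_one_iff]
    linarith
  obtain ⟨s1, s2, s3, s4, s5, s6, s7⟩ := H556.sizes (k := k) (p := p) (by linarith) hy hy1 hn hn1'
    (K := (K : ℝ)) (M := (M : ℝ)) (by rw [hK]) (by rw [hM])
  rw [← ha] at s7
  rw [← hn, ← hρ]
  have hK24 : (24 : ℝ) ≤ K := by
    calc (24 : ℝ) ≤ k := hk24
      _ ≤ k * n := le_mul_of_one_le_right (by linarith) hn1'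
      _ ≤ K := s1
  have hK0 : (0 : ℝ) ≤ K := by linarith
  have hKM2 : (K : ℝ) ≤ (K : ℝ) * M := le_mul_of_one_le_right hK0 (by linarith)
  have hKM1 : (1 : ℝ) ≤ (K : ℝ) * M := by linarith
  have hKM0 : (0 : ℝ) ≤ (K : ℝ) * M := by linarith
  have hsq : ((K : ℝ) * M) ^ 2 * y ≤ 1 / 2 := nS hKM0 s7 hyn (hp2 n hnn2)
  have hsqK : (K : ℝ) ^ 2 * y ≤ 1 / 2 :=
    (mul_le_mul_of_nonneg_right (pow_le_pow_left₀ hK0 hKM2 2) hy.le).trans hsq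
  have he : L₀ * K * M * eLoc K M Cb cb ((K : ℝ) / 12) =
      A * ((K : ℝ) * M) ^ 5 * exp (-(cb / 12 * K)) := by
    rw [eLoc_eq, hA]
    ring
  have hcK : 2 * n ≤ cb / 12 * K := by
    calc 2 * n = 24 * n / 12 := by ring
      _ ≤ (cb * k) * n / 12 := by
        apply div_le_div_of_nonneg_right _ (by norm_num)
        exact mul_le_mul_of_nonneg_right hck (by linarith)
      _ = cb / 12 * (k * n) := by ring
      _ ≤ cb / 12 * K := mul_le_mul_of_nonneg_left s1 (by positivity)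
  have he2 : L₀ * K * M * eLoc K M Cb cb ((K : ℝ) / 12) ≤ y := by
    rw [he]
    exact nE hA0 hn1' hKM0 s7 ha0 hcK hyn (hp1 n hnn1)
  have hen : 0 ≤ eLoc K M Cb cb ((K : ℝ) / 12) := by
    rw [eLoc_eq]
    positivity
  have hkk : ((1 : ℝ)) ≤ ((k : ℝ) + 2) ^ 2 := one_le_pow₀ (by linarith)
  refine ⟨by exact_mod_cast hK24, by exact_mod_cast s6, hsq, hsqK, ?_, ?_, ?_, ?_⟩
  · exact nD hL₀ hK24 s6 hen he2 hy
  · exact nB0 hρ0 hn1' hy hyn hKM1 hkk (by linarith)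
  · exact nB1 hρ0 hn1' hy hyn s4 s2 (by linarith) he2 (by linarith)
  · rw [he]
    apply mul_le_mul_of_nonneg_right _ (exp_pos _).le
    apply mul_le_mul_of_nonneg_right _ (by positivity)
    linarith

end Vale.Agent.P159.TM.H164
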