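import Vale.Agent.P159.TM.H164.AsmA
import Vale.Agent.P159.TM.H164.AsmB
import Vale.Agent.P159.TM.H164.AsmN
import Vale.Agent.P159.TM.H783.Cell3
import Vale.Agent.P159.TM.H339.BadF

/-!
P159 T1, part C, row ASMC: the final composition `StepC`.
-/

set_option linter.unusedSectionVars false

open MeasureTheory

namespace Vale.Agent.P159.TM.H164

open Vale.Agent.P159.TM
open Vale.Agent.P159.TM.SpecC
open Vale.Agent.P159.TM.H859 (Mn)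
open Vale.Agent.P159.TM.H215 (eLoc tcA Ft)
open Vale.Agent.P159.TM.H365 (AA)
open Vale.Agent.P159.TM.H783 (s2c s2c_pos gg)

/-- elementary sizes -/
theorem third (X₀ : ℝ) (K₀ k p : ℕ) (hk : 1 ≤ k) (hp : 2 ≤ p) :
    ∃ ys : ℝ, 0 < ys ∧ ys < 1 ∧ ∀ y : ℝ, 0 < y → y ≤ ys →
      1 ≤ Real.log (1 / y) ∧ K₀ ≤ Kn k y ∧ X₀ * (Kn k y : ℝ) ≤ (Mn p y : ℝ) := by
  obtain ⟨n0, hn0⟩ : ∃ n0 : ℝ, n0 = max 1 (max (|X₀| * ((k : ℝ) + 2)) K₀) := ⟨_, rfl⟩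
  have h1 : 1 ≤ n0 := by rw [hn0]; exact le_max_left _ _
  have h2 : |X₀| * ((k : ℝ) + 2) ≤ n0 := by
    rw [hn0]; exact (le_max_left _ _).trans (le_max_right _ _)
  have h3 : (K₀ : ℝ) ≤ n0 := by
    rw [hn0]; exact (le_max_right _ _).trans (le_max_right _ _)
  refine ⟨Real.exp (-n0), Real.exp_pos _, by rw [Real.exp_lt_one_iff]; linarith, ?_⟩
  intro y hy hys
  obtain ⟨n, hn⟩ : ∃ n : ℝ, n = Real.log (1 / y) := ⟨_, rfl⟩
  have hyn : y = Real.exp (-n) := by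
    rw [hn, one_div, Real.log_inv, neg_neg, Real.exp_log hy]
  have hnN : n0 ≤ n := by
    have h1 : Real.exp (-n) ≤ Real.exp (-n0) := by rw [← hyn]; exact hys
    have := Real.exp_le_exp.1 h1
    linarith
  have hn1 : 1 ≤ n := h1.trans hnN
  have hy1 : y ≤ 1 := by
    rw [hyn, Real.exp_le_one_iff]
    linarith
  obtain ⟨s1, s2, s3, s4, s5, s6, s7⟩ := H556.sizes (k := k) (p := p) (by exact_mod_cast hk) hy
    hy1 hn hn1 (K := (Kn k y : ℝ)) (M := (Mn p y : ℝ)) rfl rfl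
  rw [← hn]
  refine ⟨hn1, ?_, ?_⟩
  · have : (K₀ : ℝ) ≤ (Kn k y : ℝ) := h3.trans (hnN.trans s3)
    exact_mod_cast this
  · calc X₀ * (Kn k y : ℝ) ≤ |X₀| * (Kn k y : ℝ) :=
          mul_le_mul_of_nonneg_right (le_abs_self _) (by positivity)
      _ ≤ |X₀| * (((k : ℝ) + 2) * n) := mul_le_mul_of_nonneg_left s2 (abs_nonneg _)
      _ = (|X₀| * ((k : ℝ) + 2)) * n := by ring
      _ ≤ n * n := mul_le_mul_of_nonneg_right (h2.trans hnN) (by linarith)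
      _ = n ^ 2 := by ring
      _ ≤ n ^ p := pow_le_pow_right₀ hn1 hp
      _ ≤ _ := s5

section cell

variable {N M K ξ : ℕ} [NeZero N] [NeZero M] [NeZero (K * M)] {b : ℝ}

/-- the density -/
noncomputable abbrev rh (b : ℝ) (N M K ξ : ℕ) [NeZero N] [NeZero M] (G : Tor M → ℝ) : ℝ :=
  H845.rho (wT b N) (ms ξ) (AA (N := N) (K * ξ) (ξ / 2)) (s2c M K) G

/-- probability of the exceptional set -/
noncomputable abbrev pbN (L₀ bb : ℝ) (K M : ℕ) : ℝ :=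
  20 * (M : ℝ) ^ 2 * Real.exp (-(H339.c0 (L₀ / 8) bb * K))

/-- radius of analyticity -/
noncomputable abbrev rN (L₀ : ℝ) : ℝ := min (L₀ / 8) (Real.exp (-1))

noncomputable abbrev eN (L₀ Cb cb : ℝ) (K M : ℕ) : ℝ :=
  L₀ * K * M * eLoc K M Cb cb ((K : ℝ) / 12)

noncomputable abbrev B0N (L₀ y : ℝ) (K M : ℕ) : ℝ := tcA (rN L₀) (((K : ℝ) * M) ^ 2 * y / 2)

noncomputable abbrev B1N (L₀ Cb cb y : ℝ) (K M : ℕ) : ℝ :=
  tcA (rN L₀) ((K : ℝ) ^ 2 * y) + eN L₀ Cb cb K M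

theorem rN_pos {L₀ : ℝ} (hL₀ : 0 < L₀) : 0 < rN L₀ := lt_min (by positivity) (Real.exp_pos _)

theorem tcA_nonneg {ρ δ : ℝ} (hρ : 0 < ρ) (hδ0 : 0 < δ) (hδ1 : δ ≤ 1 / 2) : 0 ≤ tcA ρ δ := by
  have hlog : 0 ≤ Real.log (5 / (2 * δ)) := by
    apply Real.log_nonneg
    rw [le_div_iff₀ (by positivity)]
    linarith
  unfold tcA
  positivity

theorem eN_nonneg {L₀ Cb cb : ℝ} (hL₀ : 0 < L₀) (hCb : 0 ≤ Cb) (K M : ℕ) :
    0 ≤ eN L₀ Cb cb K M := by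
  unfold eN eLoc
  positivity

theorem den_ge {m : ℕ} (hm1 : 1 ≤ m) : (1 : ℝ) ≤ 2 * Real.pi * |((m : ℤ) : ℝ)| := by
  have hkr : (1 : ℝ) ≤ |((m : ℤ) : ℝ)| := by
    rw [Int.cast_natCast, abs_of_nonneg (by positivity)]
    exact_mod_cast hm1
  have hpi := Real.pi_gt_three
  nlinarith

/-- the expectation of `x^m` in the form of `H556.num` -/
theorem hD_all (hb : 0 ≤ b)
    {bb : ℝ} (hbb : b ≤ bb) (hbb0 : 0 < bb) (hξ : 0 < ξ) (hK : 24 ≤ K) (hM : 2 ≤ M)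
    (hN : N = K * M * ξ) {y a : ℝ} (hQ : QU (wT b N) ξ y a) (hy : 0 < y)
    (hw : ((K : ℝ) * M) ^ 2 * y ≤ 1 / 2) (hwK : (K : ℝ) ^ 2 * y ≤ 1 / 2)
    {L₀ Cb cb : ℝ} (hL₀ : 0 < L₀) (hCb : 0 ≤ Cb) (hcb : 0 ≤ cb)
    (hB : BOut (wT b N) ξ (L₀ / ξ) Cb cb) (hLξ : L₀ / 8 ≤ 10 * bb * ξ)
    (hnD : 3 * (L₀ * ((K : ℝ) / 12 + 5 / 2) * eLoc K M Cb cb ((K : ℝ) / 12)) +
      (K : ℝ) ^ 2 * y / 2 ≤ (K : ℝ) ^ 2 * y)
    {m : ℕ} (hm1 : 1 ≤ m) {Φ : ℝ → ℝ → ℝ → ℝ}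
    (hsh : ∀ (R B0 B1 pb : ℝ) (u : Tor (K * M)), 0 ≤ R → 2 * (R + 2) ≤ K →
      (∀ f, ‖Ft (wT b N) ξ L₀ R m u f‖ ≤ B0) → 0 ≤ B1 →
      (∀ f, LipT (L₀ / (4 * ξ)) f → ‖Ft (wT b N) ξ L₀ R m u f‖ ≤ B1) →
      ((∫ G in {G : Tor M → ℝ | LipT (L₀ / (8 * ξ)) (AA (N := N) (K * ξ) (ξ / 2) G)}ᶜ,
          rh b N M K ξ G) ≤ pb * ∫ G : Tor M → ℝ, rh b N M K ξ G) →
      ‖∫ G : Tor M → ℝ, Ft (wT b N) ξ L₀ R m u (AA (K * ξ) (ξ / 2) G) *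
          (rh b N M K ξ G : ℂ)‖ ≤ Φ B0 B1 pb * ∫ G : Tor M → ℝ, rh b N M K ξ G) :
    ‖∫ G : Tor M → ℝ, H215.xm (H104.U (wT b N) (ms ξ)) (m : ℤ) (AA (K * ξ) (ξ / 2) G) *
        (rh b N M K ξ G : ℂ)‖ ≤
      (((K : ℝ) * M) ^ 2 * y / 4 * pbN L₀ bb K M + ((K : ℝ) * M) ^ 2 *
        (eN L₀ Cb cb K M + B0N L₀ y K M * pbN L₀ bb K M +
          Φ (B0N L₀ y K M) (B1N L₀ Cb cb y K M) (pbN L₀ bb K M))) *
      ∫ G : Tor M → ℝ, rh b N M K ξ G := by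
  have hξ' : (0 : ℝ) < ξ := by exact_mod_cast hξ
  have hK' : (24 : ℝ) ≤ K := by exact_mod_cast hK
  have hM' : (2 : ℝ) ≤ M := by exact_mod_cast hM
  have hK0 : 0 < K := by omega
  have hM0 : 0 < M := by omega
  have hKM : (0 : ℝ) < ((K : ℝ) * M) ^ 2 := by
    have : (0 : ℝ) < (K : ℝ) * M := by nlinarith
    positivity
  have hk : (m : ℤ) ≠ 0 := by exact_mod_cast (by omega : m ≠ 0)
  have hden := den_ge hm1
  have hs2 : 0 < s2c M K := s2c_pos hM hK0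
  have hm : ∀ x : Tor N, 0 < ms (N := N) (ξ : ℝ) x := by
    intro x
    unfold ms
    positivity
  have hW := H870.wt_T (N := N) hb
  have hSu := H870.sup_T (N := N) hb
  have hs := fun h => H870.shift_T (N := N) (b := b) h
  have hev := fun h => H870.even_T (N := N) hb h
  have hG := H870.gin_T (N := N) hb hm
  have hkap : H871.kap (wT b N) (ms ξ) ≤ ((K : ℝ) * M) ^ 2 * y := by
    refine (H870.kap_le hQ).trans (le_of_eq ?_)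
    rw [hN]
    push_cast
    field_simp
  have hkap1 : H871.kap (wT b N) (ms ξ) ≤ 1 := by linarith
  have hρ0 := rN_pos hL₀
  have hρ1 : rN L₀ ≤ L₀ / 8 := min_le_left _ _
  have hρ2 : rN L₀ ≤ Real.exp (-1) := min_le_right _ _
  have hδ0 : 0 < ((K : ℝ) * M) ^ 2 * y / 2 := by positivity
  have hδ1 : ((K : ℝ) * M) ^ 2 * y / 2 ≤ 1 / 2 := by linarith
  have hδK : 0 < (K : ℝ) ^ 2 * y := by positivity
  have he0 := eN_nonneg (cb := cb) hL₀ hCb K M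
  have hB00 : 0 ≤ B0N L₀ y K M := tcA_nonneg hρ0 hδ0 hδ1
  have hB10 : 0 ≤ B1N L₀ Cb cb y K M := add_nonneg (tcA_nonneg hρ0 hδK hwK) he0
  have hF0 : ∀ (u : Tor (K * M)) (f : Tor N → ℝ),
      ‖Ft (wT b N) ξ L₀ ((K : ℝ) / 12) m u f‖ ≤ B0N L₀ y K M := by
    intro u f
    refine (H215.Ft_any (n := K * M) hN hξ hW hs hSu hev hG hρ0 hρ2 hkap1 hδ0 hδ1
      (by linarith) u f hk).trans ?_
    exact div_le_self hB00 hden
  have hF1 : ∀ (u : Tor (K * M)) (f : Tor N → ℝ), LipT (L₀ / (4 * ξ)) f →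
      ‖Ft (wT b N) ξ L₀ ((K : ℝ) / 12) m u f‖ ≤ B1N L₀ Cb cb y K M := by
    intro u f hf
    refine (H215.Ft_lip hN hM0 hξ hW hs hSu hev hG (fun h a => H870.trans_T h a) hL₀ hCb hcb hB
      (R := (K : ℝ) / 12) (by linarith) (by linarith) hρ0 hρ1 hρ2 hkap1 hδK hwK ?_ u hf hk).trans ?_
    · refine le_trans (add_le_add le_rfl ?_) hnD
      rw [div_le_iff₀ (by positivity)]
      refine hkap.trans (le_of_eq ?_)
      ring
    · exact div_le_self hB10 hden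
  have hbad : (∫ G in {G : Tor M → ℝ | LipT (L₀ / (8 * ξ)) (AA (N := N) (K * ξ) (ξ / 2) G)}ᶜ,
      rh b N M K ξ G) ≤ pbN L₀ bb K M * ∫ G : Tor M → ℝ, rh b N M K ξ G := by
    have h := H339.bad_T (K := K) (M := M) (ξ := ξ) (N := N) (r := ξ / 2) hN (by omega) hξ
      (by omega) (by omega) hb hbb hbb0 (L := L₀ / 8) (by positivity) hLξ hQ
      (by rw [mul_comm]; linarith) hs2
    rw [div_div] at h
    exact h
  exact hD_of hb hξ hK0 hN hs2 hQ hy.le (by linarith) hL₀ hCb hcb hB (R := (K : ℝ) / 12)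
    (by linarith) hρ0 hρ2 hδ0 hδ1 le_rfl hm1
    (S := {G : Tor M → ℝ | LipT (L₀ / (8 * ξ)) (AA (N := N) (K * ξ) (ξ / 2) G)})
    (H845.lipT_meas H845.AA_cont) (fun G hG' => H104.LipT_mono
      (div_le_div_of_nonneg_left hL₀.le (by positivity) (by linarith)) hG')
    (fun u => hsh ((K : ℝ) / 12) _ _ _ u (by positivity) (by linarith) (hF0 u) hB10 (hF1 u) hbad)
    hbad

end cell

end Vale.Agent.P159.TM.H164
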