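import Vale.Agent.P159.TM.H164.Coarse
import Vale.Agent.P159.TM.H339.C1
import Vale.Agent.P159.TM.H104.Rho
import Vale.Agent.P159.TM.H215.Charge

/-!
# C1 + C6 in the letters of the Spec of part C
-/

set_option linter.all false
set_option autoImplicit false

open MeasureTheory Filter Topology Matrix
open scoped BigOperators Real

namespace Vale.Agent.P159.TM.H164

open Vale.Agent.P159.TM

noncomputable section

section letters

variable {V : Type*} [Fintype V] [DecidableEq V]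

omit [DecidableEq V] in
theorem gs_eq_gr (ε : ℝ) (h : V → ℤ) (f : V → ℝ) : gs ε h f = H870.gr (fun _ => ε) h f := by
  unfold gs H870.gr
  congr 1
  rw [Finset.mul_sum, ← Finset.sum_neg_distrib]
  exact Finset.sum_congr rfl fun x _ => by ring

omit [DecidableEq V] in
theorem ZZ_eq_Zr (w : (V → ℤ) → ℝ) (ε : ℝ) (f : V → ℝ) :
    ZZ w ε f = H870.Zr w (fun _ => ε) f := by
  unfold ZZ H870.Zr
  exact tsum_congr fun h => by rw [gs_eq_gr]

omit [DecidableEq V] in
theorem UU_eq (w : (V → ℤ) → ℝ) (ε : ℝ) (f : V → ℝ) :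
    UU w ε f = H104.U w (fun _ => ε) f := by
  unfold UU H104.U
  rw [ZZ_eq_Zr, ZZ_eq_Zr]

omit [DecidableEq V] in
theorem Ub_eq (w : (V → ℤ) → ℝ) (ε : ℝ) (g : V → ℝ) :
    Ub w ε g = H871.Ub w (fun _ => ε) g := by
  unfold Ub H871.Ub
  refine intervalIntegral.integral_congr fun c _ => ?_
  rw [UU_eq, ← H104.U_871]

theorem ch_eq (m : ℤ) (c : ℝ) :
    H215.ch m c = Complex.exp (-(2 * π * Complex.I * m * c)) := by
  unfold H215.ch
  congr 1
  push_cast
  ring

omit [DecidableEq V] in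
theorem xm_eq (w : (V → ℤ) → ℝ) (ε : ℝ) (g : V → ℝ) (m : ℤ) :
    xm w ε g m = H215.xm (H104.U w (fun _ => ε)) m g := by
  unfold xm H215.xm
  congr 1
  refine intervalIntegral.integral_congr fun c _ => ?_
  rw [UU_eq, ch_eq]

/-- conjugation -/
theorem xm_conj (w : (V → ℤ) → ℝ) (ε : ℝ) (g : V → ℝ) (m : ℤ) :
    xm w ε g (-m) = (starRingEnd ℂ) (xm w ε g m) := by
  unfold xm
  rw [map_neg, intervalIntegral.integral_of_le zero_le_one,
    intervalIntegral.integral_of_le zero_le_one, ← integral_conj]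
  congr 1
  refine integral_congr_ae (Eventually.of_forall fun c => ?_)
  simp only
  rw [map_mul, Complex.conj_ofReal, ← Complex.exp_conj]
  congr 2
  simp only [map_neg, map_mul, Complex.conj_ofReal, Complex.conj_I]
  have h1 : (starRingEnd ℂ) 2 = 2 := Complex.conj_ofNat 2
  have h2 : (starRingEnd ℂ) (m : ℂ) = m := by
    exact_mod_cast Complex.conj_ofReal (m : ℝ)
  rw [h1, h2]
  push_cast
  ring

end letters

section bridge

variable {V C : Type} [Fintype V] [Fintype C] [DecidableEq V] [DecidableEq C]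

theorem xE_conj (w : (V → ℤ) → ℝ) (ε σ : ℝ) (A : (C → ℝ) → V → ℝ) (m : ℤ) :
    ‖xE w ε σ A (-m)‖ = ‖xE w ε σ A m‖ := by
  have h : xE w ε σ A (-m) = (starRingEnd ℂ) (xE w ε σ A m) := by
    unfold xE
    rw [← integral_conj]
    refine integral_congr_ae (Eventually.of_forall fun G => ?_)
    simp only
    rw [map_mul, map_mul, Complex.conj_ofReal, Complex.conj_ofReal, xm_conj]
  rw [h, RCLike.norm_conj]

theorem gam_rho (w : (V → ℤ) → ℝ) (ε : ℝ) (A : (C → ℝ) → V → ℝ) (s2 : ℝ) (G : C → ℝ) :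
    gam (1 / s2) G * Real.exp (-Ub w ε (A G)) = H104.rho w (fun _ => ε) A s2 G := by
  unfold gam H104.rho
  rw [← Real.exp_add, Ub_eq]
  congr 1
  ring

theorem nb_eq (w : (V → ℤ) → ℝ) (ε : ℝ) (A : (C → ℝ) → V → ℝ) (s2 : ℝ) :
    nb w ε (1 / s2) A = ∫ G : C → ℝ, H104.rho w (fun _ => ε) A s2 G := by
  unfold nb
  exact integral_congr_ae (Eventually.of_forall fun G => gam_rho w ε A s2 G)

theorem xE_eq (w : (V → ℤ) → ℝ) (ε : ℝ) (A : (C → ℝ) → V → ℝ) (s2 : ℝ) (m : ℤ) :
    xE w ε (1 / s2) A m = ∫ G : C → ℝ, H215.xm (H104.U w (fun _ => ε)) m (A G) *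
      (H104.rho w (fun _ => ε) A s2 G : ℂ) := by
  unfold xE
  refine integral_congr_ae (Eventually.of_forall fun G => ?_)
  simp only
  rw [← gam_rho, xm_eq]
  push_cast
  ring

/-- shift by one to shift by all integers -/
theorem shift_all {w : (V → ℤ) → ℝ} (hs : ∀ h, w (h + 1) = w h) (h : V → ℤ) (c : ℤ) :
    w (fun x => h x + c) = w h := by
  induction c using Int.induction_on with
  | zero => simp
  | succ n ih =>
    have h2 := hs fun x => h x + (n : ℤ)
    rw [← ih, ← h2]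
    congr 1
    funext x
    simp only [Pi.add_apply, Pi.one_apply]
    ring
  | pred n ih =>
    rw [← ih]
    have := hs fun x => h x + (-(n : ℤ) - 1)
    rw [← this]
    congr 1
    funext x
    simp only [Pi.add_apply, Pi.one_apply]
    ring

theorem wok_of_good {w : (V → ℤ) → ℝ} {B : ℝ} (hW : H339.Good w B)
    (hs : ∀ h, w (h + 1) = w h) (hev : ∀ h, w (-h) = w h) : WOK w B where
  nonneg := hW.nonneg
  le := hW.le
  shift := shift_all hs
  neg := hev
  pos := hW.pos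

/-- quadratic form around a constant -/
theorem qf_const {φ : (C → ℝ) →ₗ[ℝ] (V → ℝ)} {ψ : (V → ℝ) →ₗ[ℝ] (C → ℝ)}
    {R : (C → ℝ) →ₗ[ℝ] (C → ℝ)} {ε σ : ℝ} (H : H339.CC φ ψ R ε σ) {K : ℝ} (hK : 0 < K)
    (h1 : φ (fun _ => 1) = fun _ => 1) (h2 : ψ (fun _ => 1) = fun _ => K) (u : V → ℝ) (c : ℝ) :
    H339.qf (H339.Tc φ ψ R ε) (u - fun _ => c) = H339.qf (H339.Tc φ ψ R ε) u -
      2 * c * (ε * σ / (ε * K + σ)) * ∑ x, u x +
      (ε * σ / (ε * K + σ)) * Fintype.card V * c ^ 2 := by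
  have e1 := H.Tc_one hK h1 h2 c
  have e2 := H.Tc_sym (fun _ => c) u
  set e := ε * σ / (ε * K + σ)
  unfold H339.qf
  rw [map_sub, sub_dotProduct, dotProduct_sub, dotProduct_sub, e2, e1]
  have e3 : u ⬝ᵥ (fun _ => e * c) = e * c * ∑ x, u x := by
    simp only [dotProduct]
    rw [Finset.mul_sum]
    exact Finset.sum_congr rfl fun x _ => by ring
  have e4 : (fun _ : V => c) ⬝ᵥ (fun _ => e * c) = e * Fintype.card V * c ^ 2 := by
    simp only [dotProduct, Finset.sum_const, Finset.card_univ, nsmul_eq_mul]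
    ring
  rw [e3, e4]
  ring

/-- **C1 + C6**: the zero charge energy at the coarse scale, in terms of the `ν̄`-means of the
charges `m = 1, …, m1` -/
theorem bridge [Nonempty V] {φ : (C → ℝ) →ₗ[ℝ] (V → ℝ)} {ψ : (V → ℝ) →ₗ[ℝ] (C → ℝ)}
    {R : (C → ℝ) →ₗ[ℝ] (C → ℝ)} {ε s2 : ℝ} (hs2 : 0 < s2) (H : H339.CC φ ψ R ε (1 / s2))
    {K : ℝ} (hK : 0 < K) (hS : ∀ G, H339.ns (φ G) ≤ K * H339.ns G)
    (h1 : φ (fun _ => 1) = fun _ => 1) (h2 : ψ (fun _ => 1) = fun _ => K)
    {w : (V → ℤ) → ℝ} {B : ℝ} (hW : H339.Good w B)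
    (hs : ∀ h, w (h + 1) = w h) (hev : ∀ h, w (-h) = w h) {w0 : ℝ} (h00 : 0 ≤ w0)
    (h01 : w0 ≤ 1 / 2)
    (hosc : ∀ (g : V → ℝ) (c c' : ℝ), |H104.U w (fun _ => ε) (fun x => g x + c) -
      H104.U w (fun _ => ε) (fun x => g x + c')| ≤ w0)
    (m1 : ℕ) (hm1 : ε * Fintype.card V ≤ π ^ 2 * m1) (D : ℕ → ℝ)
    (hD : ∀ m : ℕ, 1 ≤ m → m ≤ m1 →
      ‖∫ G : C → ℝ, H215.xm (H104.U w (fun _ => ε)) (m : ℤ) (φ G) *
        (H104.rho w (fun _ => ε) φ s2 G : ℂ)‖ ≤
      D m * ∫ G : C → ℝ, H104.rho w (fun _ => ε) φ s2 G)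
    (hR : 8 / 3 * ∑ m ∈ Finset.Icc 1 m1, (m : ℝ) ^ 2 * (D m + w0 ^ 2) +
      K0 * Real.exp (-(π ^ 2 * (m1 : ℝ) ^ 2 / (ε * Fintype.card V))) ≤ 1 / 2) :
    H104.ddU w (fun _ => ε * (1 / s2) / (ε * K + 1 / s2)) 0 (fun _ => 1) (fun _ => 1) ≤
      8 * π ^ 2 * (8 / 3 * ∑ m ∈ Finset.Icc 1 m1, (m : ℝ) ^ 2 * (D m + w0 ^ 2) +
      K0 * Real.exp (-(π ^ 2 * (m1 : ℝ) ^ 2 / (ε * Fintype.card V)))) := by
  have hε := H.hε
  have hσ := H.hσ
  have hw := wok_of_good hW hs hev
  set σ := 1 / s2 with hσdef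
  set e := ε * σ / (ε * K + σ) with he
  have he0 : 0 < e := by positivity
  obtain ⟨hF, hmain⟩ := H339.C1_main H hK hS hW hev
  -- the weights
  set NCc := H339.NC φ ψ ε σ with hNC
  have hNC0 : 0 < NCc := H.NC_pos
  set ω' : (V → ℤ) → ℝ := fun h => w h * Real.exp (-(1 / 2) *
    H339.qf (H339.Tc φ ψ R ε) (H339.rl h)) with hω'
  set X : (V → ℤ) → ℝ := fun h => e * ∑ x, (h x : ℝ) with hX
  have hω'0 : ∀ h, 0 ≤ ω' h := fun h => mul_nonneg (hW.nonneg h) (Real.exp_pos _).le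
  -- summability of tilted weights
  have hlow := H.Tc_low hK hS
  have hsum' : ∀ c : ℝ, Summable fun h => ω' h * Real.exp (c * X h) := by
    intro c
    have hf := hw.summable he0 (fun _ : V => c)
    have h3 := hf.mul_left (Real.exp (e / 2 * (Fintype.card V * c ^ 2)))
    refine Summable.of_nonneg_of_le (fun h => mul_nonneg (hω'0 h) (Real.exp_pos _).le)
      (fun h => ?_) h3
    simp only [hω', hX, gs]
    have hl := hlow (H339.rl h)
    have h4 : Real.exp (-(1 / 2) * H339.qf (H339.Tc φ ψ R ε) (H339.rl h)) *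
        Real.exp (c * (e * ∑ x, (h x : ℝ))) ≤ Real.exp (e / 2 * (Fintype.card V * c ^ 2)) *
        Real.exp (-(e / 2) * ∑ x, ((h x : ℝ) - c) ^ 2) := by
      rw [← Real.exp_add, ← Real.exp_add]
      apply Real.exp_le_exp.2
      have h5 : ∑ x : V, ((h x : ℝ) - c) ^ 2 = ∑ x, (h x : ℝ) ^ 2 - 2 * c * ∑ x, (h x : ℝ) +
          Fintype.card V * c ^ 2 := by
        have : ∀ x : V, ((h x : ℝ) - c) ^ 2 = (h x : ℝ) ^ 2 - 2 * c * h x + c ^ 2 := fun x => by
          ring
        simp only [this, Finset.sum_add_distrib, Finset.sum_sub_distrib, ← Finset.mul_sum]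
        simp
      have h6 : H339.ns (H339.rl h) = ∑ x, (h x : ℝ) ^ 2 := rfl
      rw [h6] at hl
      rw [h5]
      nlinarith
    calc w h * Real.exp (-(1 / 2) * H339.qf (H339.Tc φ ψ R ε) (H339.rl h)) *
          Real.exp (c * (e * ∑ x, (h x : ℝ))) = w h *
          (Real.exp (-(1 / 2) * H339.qf (H339.Tc φ ψ R ε) (H339.rl h)) *
          Real.exp (c * (e * ∑ x, (h x : ℝ)))) := by ring
      _ ≤ w h * (Real.exp (e / 2 * (Fintype.card V * c ^ 2)) *
        Real.exp (-(e / 2) * ∑ x, ((h x : ℝ) - c) ^ 2)) :=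
          mul_le_mul_of_nonneg_left h4 (hW.nonneg h)
      _ = _ := by ring
  -- the coarse identity
  have hid : ∀ c, FF w ε σ φ c = Real.exp (-(e * Fintype.card V / 2) * c ^ 2) *
      ∑' h, (NCc * ω' h) * Real.exp (c * X h) := by
    intro c
    have h3 := (H.conv0 hK hS hW.nonneg hW.le (fun _ => c)).2
    have h4 : FF w ε σ φ c = ∫ G : C → ℝ, Real.exp (-(σ / 2) * H339.ns G) *
        H339.Ze w ε ((fun _ => c) + φ G) := by
      unfold FF
      refine integral_congr_ae (Eventually.of_forall fun G => ?_)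
      simp only
      rw [ZZ_eq_Zr, H339.Zr_eq_Ze]
      congr 2
      funext x
      simp only [Pi.add_apply]
      ring
    rw [h4, h3]
    unfold H339.ZF
    rw [← tsum_mul_left, ← tsum_mul_left]
    refine tsum_congr fun h => ?_
    rw [qf_const H hK h1 h2]
    simp only [hω', hX]
    have h5 : Real.exp (-(1 / 2) * (H339.qf (H339.Tc φ ψ R ε) (H339.rl h) -
        2 * c * (ε * σ / (ε * K + σ)) * ∑ x, H339.rl h x +
        (ε * σ / (ε * K + σ)) * Fintype.card V * c ^ 2)) =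
        Real.exp (-(e * Fintype.card V / 2) * c ^ 2) *
        (Real.exp (-(1 / 2) * H339.qf (H339.Tc φ ψ R ε) (H339.rl h)) *
          Real.exp (c * (e * ∑ x, (h x : ℝ)))) := by
      rw [← Real.exp_add, ← Real.exp_add]
      congr 1
      have : ∑ x, H339.rl h x = ∑ x, (h x : ℝ) := rfl
      rw [this, ← he]
      ring
    rw [h5]
    ring
  -- the charges
  set r : ℤ → ℝ := fun m => D m.natAbs with hr
  have hRR : RR (sV V ε) w0 m1 r = 8 / 3 * ∑ m ∈ Finset.Icc 1 m1, (m : ℝ) ^ 2 * (D m + w0 ^ 2) +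
      K0 * Real.exp (-(π ^ 2 * (m1 : ℝ) ^ 2 / (ε * Fintype.card V))) := by
    unfold RR sV
    congr 1
    have h3 : ∑ m ∈ Finset.Icc (-(m1 : ℤ)) m1, (m : ℝ) ^ 2 * (4 / 3 * (r m + w0 ^ 2)) =
        2 * ∑ m ∈ Finset.Icc 1 m1, (m : ℝ) ^ 2 * (4 / 3 * (D m + w0 ^ 2)) := by
      have h4 : Finset.Icc (-(m1 : ℤ)) m1 = (Finset.Icc 1 m1).image (fun n : ℕ => (n : ℤ)) ∪
          ((Finset.Icc 1 m1).image (fun n : ℕ => -(n : ℤ)) ∪ {0}) := by
        ext m
        simp only [Finset.mem_Icc, Finset.mem_union, Finset.mem_image, Finset.mem_singleton]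
        constructor
        · rintro ⟨ha, hb⟩
          rcases lt_trichotomy m 0 with h | h | h
          · right; left
            exact ⟨m.natAbs, ⟨by omega, by omega⟩, by omega⟩
          · right; right; exact h
          · left
            exact ⟨m.natAbs, ⟨by omega, by omega⟩, by omega⟩
        · rintro (⟨n, ⟨ha, hb⟩, rfl⟩ | ⟨n, ⟨ha, hb⟩, rfl⟩ | rfl)
          · constructor <;> omega
          · constructor <;> omega
          · constructor <;> omega
      rw [h4, Finset.sum_union, Finset.sum_union, Finset.sum_singleton,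
        Finset.sum_image (by intro a _ b _ h; simpa using h),
        Finset.sum_image (by intro a _ b _ h; simpa using h)]
      · simp only [hr]
        simp only [Int.natAbs_neg, Int.natAbs_natCast, Int.cast_neg, Int.cast_natCast, neg_sq]
        simp
        ring
      · rw [Finset.disjoint_singleton_right, Finset.mem_image]
        rintro ⟨n, hn, h⟩
        rw [Finset.mem_Icc] at hn
        omega
      · rw [Finset.disjoint_left]
        intro m hm hm'
        simp only [Finset.mem_image, Finset.mem_Icc, Finset.mem_union,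
          Finset.mem_singleton] at hm hm'
        obtain ⟨n, hn, rfl⟩ := hm
        rcases hm' with ⟨n', hn', h⟩ | h
        · omega
        · omega
    rw [h3]
    rw [Finset.mul_sum, Finset.mul_sum]
    exact Finset.sum_congr rfl fun m _ => by ring
  have hb := charge_bound hw hε hσ (A := φ) (LinearMap.continuous_of_finiteDimensional φ)
    (fun G => map_neg φ G) (w0 := w0) (fun g c c' => by rw [UU_eq, UU_eq]; exact hosc g c c')
    h00 h01 (ω := fun h => NCc * ω' h) (X := X) (fun h => mul_nonneg hNC0.le (hω'0 h))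
    (fun c => by
      have := (hsum' c).mul_left NCc
      refine this.congr fun h => ?_
      ring) (e * Fintype.card V) hid m1 hm1 r (fun m hm hm' => by
      have hna : m.natAbs ≤ m1 := by
        have := abs_le.1 hm'
        omega
      have hn1 : 1 ≤ m.natAbs := by omega
      have h3 := hD m.natAbs hn1 hna
      rw [← xE_eq, ← nb_eq, ← hσdef] at h3
      rcases le_total 0 m with h | h
      · have h4 : ((m.natAbs : ℕ) : ℤ) = m := by omega
        rw [h4] at h3
        exact h3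
      · have h4 : ((m.natAbs : ℕ) : ℤ) = -m := by omega
        rw [h4, xE_conj] at h3
        exact h3) (by rw [hRR]; exact hR)
  rw [hRR] at hb
  -- divide by the total weight
  have hpos : 0 < ∑' h, ω' h := by
    have h0 : Summable ω' := by simpa using hsum' 0
    obtain ⟨h', hp⟩ := hW.pos
    refine h0.tsum_pos hω'0 h' (mul_pos hp (Real.exp_pos _))
  have hdiv : e * Fintype.card V * ∑' h, ω' h - ∑' h, ω' h * X h ^ 2 ≤
      8 * π ^ 2 * (8 / 3 * ∑ m ∈ Finset.Icc 1 m1, (m : ℝ) ^ 2 * (D m + w0 ^ 2) +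
      K0 * Real.exp (-(π ^ 2 * (m1 : ℝ) ^ 2 / (ε * Fintype.card V)))) * ∑' h, ω' h := by
    have e1 : ∑' h, NCc * ω' h = NCc * ∑' h, ω' h := tsum_mul_left
    have e2 : ∑' h, NCc * ω' h * X h ^ 2 = NCc * ∑' h, ω' h * X h ^ 2 := by
      rw [← tsum_mul_left]
      exact tsum_congr fun h => by ring
    rw [e1, e2] at hb
    have h3 : NCc * (e * Fintype.card V * ∑' h, ω' h - ∑' h, ω' h * X h ^ 2) ≤
        NCc * (8 * π ^ 2 * (8 / 3 * ∑ m ∈ Finset.Icc 1 m1, (m : ℝ) ^ 2 * (D m + w0 ^ 2) +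
      K0 * Real.exp (-(π ^ 2 * (m1 : ℝ) ^ 2 / (ε * Fintype.card V)))) * ∑' h, ω' h) := by
      linarith
    exact le_of_mul_le_mul_left h3 hNC0
  refine hmain.trans ?_
  have h5 : e ^ 2 * H416.m2 (fun h => w h * Real.exp (-(1 / 2) *
      H339.qf (H339.Tc φ ψ R ε) (H339.rl h))) (fun _ => 1) =
      (∑' h, ω' h * X h ^ 2) / ∑' h, ω' h := by
    unfold H416.m2
    rw [← mul_div_assoc, ← tsum_mul_left]
    congr 1
    refine tsum_congr fun h => ?_
    simp only [hω', hX, H416.pr, one_mul]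
    ring
  rw [← he, h5]
  rw [sub_le_iff_le_add, ← sub_le_iff_le_add', le_div_iff₀ hpos]
  linarith

end bridge

end

end Vale.Agent.P159.TM.H164
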