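import Mathlib

/-!
# Coarse step and sector algebra (P159, T1, parts C1 and C6)

`V` finite, `w` a bounded nonnegative weight on `V → ℤ`, invariant under constants and `h ↦ -h`.
-/

set_option linter.all false
set_option autoImplicit false

open MeasureTheory Filter Topology Matrix
open scoped BigOperators Real

namespace Vale.Agent.P159.TM.H164

noncomputable section

variable {V : Type*} [Fintype V] [DecidableEq V]

/-- the Gaussian factor with mass `ε` and background `f` -/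
def gs (ε : ℝ) (h : V → ℤ) (f : V → ℝ) : ℝ :=
  Real.exp (-(ε / 2) * ∑ x, ((h x : ℝ) - f x) ^ 2)

/-- partition function in the background `f` -/
def ZZ (w : (V → ℤ) → ℝ) (ε : ℝ) (f : V → ℝ) : ℝ := ∑' h : V → ℤ, w h * gs ε h f

/-- admissible height weights -/
structure WOK (w : (V → ℤ) → ℝ) (W : ℝ) : Prop where
  nonneg : ∀ h, 0 ≤ w h
  le : ∀ h, w h ≤ W
  shift : ∀ (h : V → ℤ) (c : ℤ), w (fun x => h x + c) = w h
  neg : ∀ h, w (-h) = w h
  pos : ∃ h, 0 < w h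

theorem gs_pos (ε : ℝ) (h : V → ℤ) (f : V → ℝ) : 0 < gs ε h f := Real.exp_pos _

omit [DecidableEq V] in
theorem gs_eq_prod (ε : ℝ) (h : V → ℤ) (f : V → ℝ) :
    gs ε h f = ∏ x, Real.exp (-(ε / 2) * ((h x : ℝ) - f x) ^ 2) := by
  unfold gs
  rw [Finset.mul_sum, Real.exp_sum]

/-- products of summable sequences are summable on `V → ℤ` -/
theorem summable_pi_prod {g : ℤ → ℝ} (hg : Summable g) (h0 : ∀ z, 0 ≤ g z) :
    Summable fun n : V → ℤ => ∏ i, g (n i) := by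
  refine summable_of_sum_le (c := ∏ _i : V, ∑' z, g z)
    (fun n => Finset.prod_nonneg fun i _ => h0 _) fun s => ?_
  calc ∑ n ∈ s, ∏ i, g (n i)
      ≤ ∑ n ∈ Fintype.piFinset (fun i => s.image (fun n => n i)), ∏ i, g (n i) := by
        refine Finset.sum_le_sum_of_subset_of_nonneg (fun n hn => ?_)
          (fun n _ _ => Finset.prod_nonneg fun i _ => h0 _)
        simp only [Fintype.mem_piFinset]
        exact fun i => Finset.mem_image_of_mem (fun n : V → ℤ => n i) hn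
    _ = ∏ i, ∑ z ∈ s.image (fun n => n i), g z := (Finset.prod_univ_sum _ _).symm
    _ ≤ ∏ _i : V, ∑' z, g z :=
        Finset.prod_le_prod (fun i _ => Finset.sum_nonneg fun z _ => h0 z)
          fun i _ => hg.sum_le_tsum _ fun z _ => h0 z

theorem summable_int_pow_gauss {a : ℝ} (ha : 0 < a) (k : ℕ) :
    Summable fun n : ℤ => |(n : ℝ)| ^ k * Real.exp (-a * (n : ℝ) ^ 2) := by
  have h := summable_pow_mul_jacobiTheta₂_term_bound 0 (T := a / π) (by positivity) k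
  refine h.congr fun n => ?_
  have hpi : π ≠ 0 := Real.pi_ne_zero
  congr 1
  · push_cast; rfl
  · congr 1
    field_simp
    ring

theorem summable_int_gauss {a : ℝ} (ha : 0 < a) :
    Summable fun n : ℤ => Real.exp (-a * (n : ℝ) ^ 2) := by
  refine (summable_int_pow_gauss ha 0).congr fun n => ?_
  simp

theorem summable_gauss {a : ℝ} (ha : 0 < a) :
    Summable fun h : V → ℤ => Real.exp (-a * ∑ x, (h x : ℝ) ^ 2) := by
  have h := summable_pi_prod (V := V) (summable_int_gauss ha) fun z => (Real.exp_pos _).le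
  refine h.congr fun n => ?_
  rw [Finset.mul_sum, Real.exp_sum]

omit [DecidableEq V] in
theorem gs_le {ε R : ℝ} (hε : 0 < ε) (h : V → ℤ) {f : V → ℝ} (hf : ∀ x, |f x| ≤ R) :
    gs ε h f ≤ Real.exp ((ε / 2) * (Fintype.card V * R ^ 2)) *
      Real.exp (-(ε / 4) * ∑ x, (h x : ℝ) ^ 2) := by
  unfold gs
  rw [← Real.exp_add]
  apply Real.exp_le_exp.2
  have h1 : ∀ x, (h x : ℝ) ^ 2 / 2 - R ^ 2 ≤ ((h x : ℝ) - f x) ^ 2 := by
    intro x
    have h2 : (f x) ^ 2 ≤ R ^ 2 := by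
      rw [← sq_abs]
      exact pow_le_pow_left₀ (abs_nonneg _) (hf x) 2
    nlinarith [sq_nonneg ((h x : ℝ) - 2 * f x)]
  have h3 : ∑ x, ((h x : ℝ) ^ 2 / 2 - R ^ 2) ≤ ∑ x, ((h x : ℝ) - f x) ^ 2 :=
    Finset.sum_le_sum fun x _ => h1 x
  have h4 : ∑ x : V, ((h x : ℝ) ^ 2 / 2 - R ^ 2) =
      (∑ x, (h x : ℝ) ^ 2) / 2 - Fintype.card V * R ^ 2 := by
    rw [Finset.sum_sub_distrib, Finset.sum_div]
    simp
  rw [h4] at h3
  nlinarith

theorem gs_summable {ε : ℝ} (hε : 0 < ε) (f : V → ℝ) : Summable fun h : V → ℤ => gs ε h f := by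
  refine Summable.of_nonneg_of_le (fun h => (gs_pos _ _ _).le)
    (fun h => gs_le (R := ∑ x, |f x|) hε h fun x =>
      Finset.single_le_sum (f := fun x => |f x|) (fun _ _ => abs_nonneg _) (Finset.mem_univ x))
    ((summable_gauss (by positivity)).mul_left _)

theorem WOK.summable {w : (V → ℤ) → ℝ} {W ε : ℝ} (hw : WOK w W) (hε : 0 < ε) (f : V → ℝ) :
    Summable fun h : V → ℤ => w h * gs ε h f := by
  refine Summable.of_nonneg_of_le (fun h => mul_nonneg (hw.nonneg h) (gs_pos _ _ _).le)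
    (fun h => ?_) ((gs_summable hε f).mul_left W)
  exact mul_le_mul_of_nonneg_right (hw.le h) (gs_pos _ _ _).le

theorem ZZ_pos {w : (V → ℤ) → ℝ} {W ε : ℝ} (hw : WOK w W) (hε : 0 < ε) (f : V → ℝ) :
    0 < ZZ w ε f := by
  obtain ⟨h0, hp⟩ := hw.pos
  have h := (hw.summable hε f).sum_le_tsum {h0} fun h _ => mul_nonneg (hw.nonneg h) (gs_pos _ _ _).le
  rw [Finset.sum_singleton] at h
  exact lt_of_lt_of_le (mul_pos hp (gs_pos _ _ _)) h

/-! ### the theta function -/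

theorem theta {s : ℝ} (hs : 0 < s) (t : ℝ) :
    ((∑' j : ℤ, Real.exp (-(s / 2) * (t - j) ^ 2) : ℝ) : ℂ) =
      (Real.sqrt (2 * π / s) : ℂ) *
        ∑' m : ℤ, (Real.exp (-(2 * π ^ 2 / s) * (m : ℝ) ^ 2) : ℂ) *
          Complex.exp (2 * π * Complex.I * m * t) := by
  have hpi : (π : ℂ) ≠ 0 := by exact_mod_cast Real.pi_ne_zero
  have hsC : (s : ℂ) ≠ 0 := by exact_mod_cast hs.ne'
  have ha : 0 < ((2 * π / s : ℝ) : ℂ).re := by
    rw [Complex.ofReal_re]; positivity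
  have h := Complex.tsum_exp_neg_quadratic ha (Complex.I * t)
  have h1 : (((2 * π / s : ℝ) : ℂ)) ^ (1 / 2 : ℂ) = (Real.sqrt (2 * π / s) : ℂ) := by
    rw [Real.sqrt_eq_rpow, Complex.ofReal_cpow (by positivity)]
    norm_num
  rw [h1] at h
  have h2 : (Real.sqrt (2 * π / s) : ℂ) ≠ 0 := by
    have : Real.sqrt (2 * π / s) ≠ 0 := by positivity
    exact_mod_cast this
  have h3 : (∑' n : ℤ, Complex.exp (-π / ((2 * π / s : ℝ) : ℂ) *
      (n + Complex.I * (Complex.I * t)) ^ 2)) =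
      ((∑' j : ℤ, Real.exp (-(s / 2) * (t - j) ^ 2) : ℝ) : ℂ) := by
    rw [Complex.ofReal_tsum]
    refine tsum_congr fun n => ?_
    rw [Complex.ofReal_exp]
    congr 1
    push_cast
    rw [show (n:ℂ) + Complex.I * (Complex.I * t) = n - t by
      rw [← mul_assoc, Complex.I_mul_I]; ring]
    field_simp
    ring
  rw [h3] at h
  have h4 : (∑' n : ℤ, Complex.exp (-π * ((2 * π / s : ℝ) : ℂ) * n ^ 2 +
      2 * π * (Complex.I * t) * n)) =
      ∑' m : ℤ, (Real.exp (-(2 * π ^ 2 / s) * (m : ℝ) ^ 2) : ℂ) *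
          Complex.exp (2 * π * Complex.I * m * t) := by
    refine tsum_congr fun n => ?_
    rw [Complex.ofReal_exp, ← Complex.exp_add]
    congr 1
    push_cast
    field_simp
  rw [h4] at h
  rw [h]
  field_simp

/-! ### splitting off the constants -/

/-- mean of `h - g` -/
def mu (h : V → ℤ) (g : V → ℝ) : ℝ := (∑ x, ((h x : ℝ) - g x)) / Fintype.card V

/-- weight of the class of `h` modulo constants -/
def aw (w : (V → ℤ) → ℝ) (ε : ℝ) (g : V → ℝ) (h : V → ℤ) : ℝ :=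
  w h * Real.exp (-(ε / 2) * ∑ x, ((h x : ℝ) - g x - mu h g) ^ 2)

omit [DecidableEq V] in
theorem aw_nonneg {w : (V → ℤ) → ℝ} {W : ℝ} (hw : WOK w W) (ε : ℝ) (g : V → ℝ) (h : V → ℤ) :
    0 ≤ aw w ε g h := mul_nonneg (hw.nonneg h) (Real.exp_pos _).le

omit [DecidableEq V] in
theorem mu_shift [Nonempty V] (h : V → ℤ) (g : V → ℝ) (j : ℤ) :
    mu (fun x => h x + j) g = mu h g + j := by
  have hV : (Fintype.card V : ℝ) ≠ 0 := by
    have := Fintype.card_pos (α := V)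
    positivity
  unfold mu
  have h1 : ∑ x, (((h x + j : ℤ) : ℝ) - g x) = ∑ x, ((h x : ℝ) - g x) + Fintype.card V * j := by
    have : ∀ x, (((h x + j : ℤ) : ℝ) - g x) = ((h x : ℝ) - g x) + j := fun x => by push_cast; ring
    simp only [this, Finset.sum_add_distrib]
    simp
  rw [h1]
  field_simp

omit [DecidableEq V] in
theorem aw_shift [Nonempty V] {w : (V → ℤ) → ℝ} {W : ℝ} (hw : WOK w W) (ε : ℝ) (g : V → ℝ)
    (h : V → ℤ) (j : ℤ) : aw w ε g (fun x => h x + j) = aw w ε g h := by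
  unfold aw
  rw [hw.shift, mu_shift]
  congr 3
  refine Finset.sum_congr rfl fun x _ => ?_
  push_cast
  ring

omit [DecidableEq V] in
theorem wgs_eq [Nonempty V] (w : (V → ℤ) → ℝ) (ε : ℝ) (g : V → ℝ) (c : ℝ) (h : V → ℤ) :
    w h * gs ε h (fun x => g x + c) =
      aw w ε g h * Real.exp (-(ε * Fintype.card V / 2) * (c - mu h g) ^ 2) := by
  have hV : (Fintype.card V : ℝ) ≠ 0 := by
    have := Fintype.card_pos (α := V)
    positivity
  unfold gs aw
  rw [mul_assoc, ← Real.exp_add]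
  congr 2
  have h0 : ∑ x, ((h x : ℝ) - g x - mu h g) = 0 := by
    rw [Finset.sum_sub_distrib, Finset.sum_const, Finset.card_univ, nsmul_eq_mul]
    unfold mu
    field_simp
    ring
  have h1 : ∑ x, ((h x : ℝ) - (g x + c)) ^ 2 =
      ∑ x, ((h x : ℝ) - g x - mu h g) ^ 2 + Fintype.card V * (c - mu h g) ^ 2 := by
    have h2 : ∀ x, ((h x : ℝ) - (g x + c)) ^ 2 = ((h x : ℝ) - g x - mu h g) ^ 2 +
        (-2 * (c - mu h g)) * ((h x : ℝ) - g x - mu h g) + (c - mu h g) ^ 2 := fun x => by ring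
    simp only [h2, Finset.sum_add_distrib, ← Finset.mul_sum, h0]
    simp
  rw [h1]
  ring

/-- `V → ℤ` splits into a rooted height and a constant -/
def rootEquiv (x0 : V) : (V → ℤ) ≃ {h : V → ℤ // h x0 = 0} × ℤ where
  toFun h := (⟨fun x => h x - h x0, sub_self _⟩, h x0)
  invFun p := fun x => p.1.1 x + p.2
  left_inv h := by
    funext x
    simp
  right_inv p := by
    obtain ⟨⟨h, hh⟩, j⟩ := p
    simp [hh]

theorem summable_class [Nonempty V] {w : (V → ℤ) → ℝ} {W ε : ℝ} (hw : WOK w W) (hε : 0 < ε)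
    (x0 : V) (g : V → ℝ) (c : ℝ) :
    Summable fun p : {h : V → ℤ // h x0 = 0} × ℤ => aw w ε g p.1.1 *
      Real.exp (-(ε * Fintype.card V / 2) * (c - mu p.1.1 g - p.2) ^ 2) := by
  have h := (rootEquiv x0).symm.summable_iff.2 (hw.summable hε (fun x => g x + c))
  refine h.congr fun p => ?_
  simp only [Function.comp, rootEquiv, Equiv.coe_fn_symm_mk]
  rw [wgs_eq, aw_shift hw, mu_shift]
  congr 3
  ring

theorem tsum_class [Nonempty V] {w : (V → ℤ) → ℝ} {W ε : ℝ} (hw : WOK w W) (hε : 0 < ε)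
    (x0 : V) (g : V → ℝ) (c : ℝ) :
    ZZ w ε (fun x => g x + c) = ∑' h : {h : V → ℤ // h x0 = 0}, aw w ε g h.1 *
      ∑' j : ℤ, Real.exp (-(ε * Fintype.card V / 2) * (c - mu h.1 g - j) ^ 2) := by
  have h := summable_class hw hε x0 g c
  have h1 : ZZ w ε (fun x => g x + c) = ∑' p : {h : V → ℤ // h x0 = 0} × ℤ, aw w ε g p.1.1 *
      Real.exp (-(ε * Fintype.card V / 2) * (c - mu p.1.1 g - p.2) ^ 2) := by
    unfold ZZ
    rw [← (rootEquiv x0).symm.tsum_eq]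
    refine tsum_congr fun p => ?_
    simp only [rootEquiv, Equiv.coe_fn_symm_mk]
    rw [wgs_eq, aw_shift hw, mu_shift]
    congr 3
    ring
  rw [h1, h.tsum_prod]
  exact tsum_congr fun h' => by dsimp only; rw [tsum_mul_left]

theorem summable_aw [Nonempty V] {w : (V → ℤ) → ℝ} {W ε : ℝ} (hw : WOK w W) (hε : 0 < ε)
    (x0 : V) (g : V → ℝ) : Summable fun h : {h : V → ℤ // h x0 = 0} => aw w ε g h.1 := by
  have h := (summable_class hw hε x0 g 0).prod
  have hs : 0 < ε * Fintype.card V / 2 := by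
    have := Fintype.card_pos (α := V)
    positivity
  set s := ε * Fintype.card V / 2
  have h2 : ∀ t : ℝ, Real.exp (-s / 4) ≤ ∑' j : ℤ, Real.exp (-s * (t - j) ^ 2) := by
    intro t
    have hsm : Summable fun j : ℤ => Real.exp (-s * (t - j) ^ 2) := by
      have h3 := (summable_int_gauss (a := s / 2) (by positivity)).mul_left (Real.exp (s * t ^ 2))
      refine Summable.of_nonneg_of_le (fun _ => (Real.exp_pos _).le) (fun j => ?_) h3
      rw [← Real.exp_add]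
      apply Real.exp_le_exp.2
      nlinarith [sq_nonneg ((j : ℝ) - 2 * t), mul_nonneg hs.le (sq_nonneg ((j : ℝ) - 2 * t))]
    have h4 := hsm.sum_le_tsum {round t} fun j _ => (Real.exp_pos _).le
    rw [Finset.sum_singleton] at h4
    refine le_trans (Real.exp_le_exp.2 ?_) h4
    have h5 : |t - round t| ≤ 1 / 2 := abs_sub_round t
    have h6 : (t - round t) ^ 2 ≤ 1 / 4 := by
      rw [← sq_abs]
      nlinarith [abs_nonneg (t - round t)]
    nlinarith
  have h3 : Summable fun h : {h : V → ℤ // h x0 = 0} => Real.exp (s / 4) * (aw w ε g h.1 *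
      ∑' j : ℤ, Real.exp (-s * (0 - mu h.1 g - j) ^ 2)) := by
    refine Summable.mul_left _ (h.congr fun h' => ?_)
    dsimp only
    rw [tsum_mul_left]
  refine Summable.of_nonneg_of_le (fun h' => aw_nonneg hw _ _ _) (fun h' => ?_) h3
  have h7 := h2 (0 - mu h'.1 g)
  have h8 : 1 = Real.exp (s / 4) * Real.exp (-s / 4) := by
    rw [← Real.exp_add]; ring_nf; simp
  calc aw w ε g h'.1 = Real.exp (s / 4) * (aw w ε g h'.1 * Real.exp (-s / 4)) := by
        rw [mul_left_comm, ← h8, mul_one]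
    _ ≤ _ := by
        apply mul_le_mul_of_nonneg_left _ (Real.exp_pos _).le
        exact mul_le_mul_of_nonneg_left h7 (aw_nonneg hw _ _ _)

/-! ### Fourier expansion in the constant -/

/-- the total mass `s = ε |V|` -/
def sV (V : Type*) [Fintype V] (ε : ℝ) : ℝ := ε * Fintype.card V

theorem sV_pos [Nonempty V] {ε : ℝ} (hε : 0 < ε) : 0 < sV V ε := by
  have := Fintype.card_pos (α := V)
  unfold sV
  positivity

/-- charge `m` part of the class weights -/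
def Xm (w : (V → ℤ) → ℝ) (ε : ℝ) (x0 : V) (g : V → ℝ) (m : ℤ) : ℂ :=
  ∑' h : {h : V → ℤ // h x0 = 0}, (aw w ε g h.1 : ℂ) *
    Complex.exp (-(2 * π * Complex.I * m * mu h.1 g))

/-- the explicit Fourier coefficient -/
def Cm (w : (V → ℤ) → ℝ) (ε : ℝ) (x0 : V) (g : V → ℝ) (m : ℤ) : ℂ :=
  (Real.sqrt (2 * π / sV V ε) : ℂ) * (Real.exp (-(2 * π ^ 2 / sV V ε) * (m : ℝ) ^ 2) : ℂ) *
    Xm w ε x0 g m

theorem norm_cexp_mul (a : ℝ) (m : ℤ) : ‖Complex.exp (2 * π * Complex.I * m * a)‖ = 1 := by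
  rw [show (2 * π * Complex.I * m * a : ℂ) = ((2 * π * m * a : ℝ) : ℂ) * Complex.I by
    push_cast; ring]
  exact Complex.norm_exp_ofReal_mul_I _

theorem norm_cexp_neg_mul (a : ℝ) (m : ℤ) :
    ‖Complex.exp (-(2 * π * Complex.I * m * a))‖ = 1 := by
  rw [show (-(2 * π * Complex.I * m * a) : ℂ) = ((-(2 * π * m * a) : ℝ) : ℂ) * Complex.I by
    push_cast; ring]
  exact Complex.norm_exp_ofReal_mul_I _

theorem norm_Xm_le [Nonempty V] {w : (V → ℤ) → ℝ} {W ε : ℝ} (hw : WOK w W) (hε : 0 < ε)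
    (x0 : V) (g : V → ℝ) (m : ℤ) :
    ‖Xm w ε x0 g m‖ ≤ ∑' h : {h : V → ℤ // h x0 = 0}, aw w ε g h.1 := by
  have h := summable_aw hw hε x0 g
  have h1 : ∀ h : {h : V → ℤ // h x0 = 0}, ‖(aw w ε g h.1 : ℂ) *
    Complex.exp (-(2 * π * Complex.I * m * mu h.1 g))‖ = aw w ε g h.1 := by
    intro h
    rw [norm_mul, norm_cexp_neg_mul, mul_one, Complex.norm_real, Real.norm_of_nonneg
      (aw_nonneg hw _ _ _)]
  unfold Xm
  refine (norm_tsum_le_tsum_norm ?_).trans (le_of_eq ?_)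
  · exact h.congr fun h' => (h1 h').symm
  · exact tsum_congr h1

theorem Xm_zero [Nonempty V] (w : (V → ℤ) → ℝ) (ε : ℝ) (x0 : V) (g : V → ℝ) :
    Xm w ε x0 g 0 = ((∑' h : {h : V → ℤ // h x0 = 0}, aw w ε g h.1 : ℝ) : ℂ) := by
  unfold Xm
  rw [Complex.ofReal_tsum]
  refine tsum_congr fun h => ?_
  simp

theorem norm_Cm_le [Nonempty V] {w : (V → ℤ) → ℝ} {W ε : ℝ} (hw : WOK w W) (hε : 0 < ε)
    (x0 : V) (g : V → ℝ) (m : ℤ) :
    ‖Cm w ε x0 g m‖ ≤ Real.exp (-(2 * π ^ 2 / sV V ε) * (m : ℝ) ^ 2) * (Cm w ε x0 g 0).re := by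
  have h1 : (Cm w ε x0 g 0).re = Real.sqrt (2 * π / sV V ε) *
      ∑' h : {h : V → ℤ // h x0 = 0}, aw w ε g h.1 := by
    unfold Cm
    rw [Xm_zero]
    simp [← Complex.ofReal_mul]
  rw [h1]
  unfold Cm
  rw [norm_mul, norm_mul, Complex.norm_real, Complex.norm_real,
    Real.norm_of_nonneg (Real.sqrt_nonneg _), Real.norm_of_nonneg (Real.exp_pos _).le]
  have h2 := norm_Xm_le hw hε x0 g m
  calc _ ≤ Real.sqrt (2 * π / sV V ε) * Real.exp (-(2 * π ^ 2 / sV V ε) * (m : ℝ) ^ 2) *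
        ∑' h : {h : V → ℤ // h x0 = 0}, aw w ε g h.1 := by gcongr
    _ = _ := by ring

/-- one term of the double series -/
def TT (w : (V → ℤ) → ℝ) (ε : ℝ) (g : V → ℝ) (c : ℝ) (h : V → ℤ) (m : ℤ) : ℂ :=
  (aw w ε g h : ℂ) * ((Real.sqrt (2 * π / sV V ε) : ℂ) *
    ((Real.exp (-(2 * π ^ 2 / sV V ε) * (m : ℝ) ^ 2) : ℂ) *
      Complex.exp (2 * π * Complex.I * m * ((c - mu h g : ℝ) : ℂ))))

theorem norm_TT {w : (V → ℤ) → ℝ} {W : ℝ} (hw : WOK w W) (ε : ℝ) (g : V → ℝ) (c : ℝ)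
    (h : V → ℤ) (m : ℤ) : ‖TT w ε g c h m‖ = aw w ε g h *
      (Real.sqrt (2 * π / sV V ε) * Real.exp (-(2 * π ^ 2 / sV V ε) * (m : ℝ) ^ 2)) := by
  unfold TT
  rw [norm_mul, norm_mul, norm_mul, norm_cexp_mul, mul_one, Complex.norm_real,
      Complex.norm_real, Complex.norm_real, Real.norm_of_nonneg (aw_nonneg hw _ _ _),
      Real.norm_of_nonneg (Real.sqrt_nonneg _), Real.norm_of_nonneg (Real.exp_pos _).le]

theorem summable_TT [Nonempty V] {w : (V → ℤ) → ℝ} {W ε : ℝ} (hw : WOK w W) (hε : 0 < ε)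
    (x0 : V) (g : V → ℝ) (c : ℝ) :
    Summable fun p : {h : V → ℤ // h x0 = 0} × ℤ => TT w ε g c p.1.1 p.2 := by
  have hs : 0 < sV V ε := sV_pos hε
  refine Summable.of_norm ?_
  have h4 := (summable_aw hw hε x0 g).mul_of_nonneg
    ((summable_int_gauss (a := 2 * π ^ 2 / sV V ε) (by positivity)).mul_left
      (Real.sqrt (2 * π / sV V ε))) (fun h => aw_nonneg hw _ _ _)
      (fun m => mul_nonneg (Real.sqrt_nonneg _) (Real.exp_pos _).le)
  exact h4.congr fun p => (norm_TT hw ε g c p.1.1 p.2).symm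

theorem tsum_TT_m [Nonempty V] (w : (V → ℤ) → ℝ) {ε : ℝ} (hε : 0 < ε)
    (g : V → ℝ) (c : ℝ) (h : V → ℤ) :
    ((aw w ε g h * ∑' j : ℤ, Real.exp (-(ε * Fintype.card V / 2) * (c - mu h g - j) ^ 2) : ℝ) : ℂ)
      = ∑' m : ℤ, TT w ε g c h m := by
  have hs : 0 < sV V ε := sV_pos hε
  have h2 := theta (s := sV V ε) hs (c - mu h g)
  unfold TT
  rw [tsum_mul_left, tsum_mul_left, ← h2, Complex.ofReal_mul]
  rfl

theorem tsum_TT_h [Nonempty V] (w : (V → ℤ) → ℝ) (ε : ℝ)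
    (x0 : V) (g : V → ℝ) (c : ℝ) (m : ℤ) :
    ∑' h : {h : V → ℤ // h x0 = 0}, TT w ε g c h.1 m =
      Cm w ε x0 g m * Complex.exp (2 * π * Complex.I * m * c) := by
  unfold Cm Xm TT
  rw [← tsum_mul_left, ← tsum_mul_right]
  refine tsum_congr fun h => ?_
  have h5 : Complex.exp (2 * π * Complex.I * m * ((c - mu h.1 g : ℝ) : ℂ)) =
      Complex.exp (-(2 * π * Complex.I * m * mu h.1 g)) *
        Complex.exp (2 * π * Complex.I * m * c) := by
    rw [← Complex.exp_add]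
    congr 1
    push_cast
    ring
  rw [h5]
  ring

theorem summable_Cm [Nonempty V] {w : (V → ℤ) → ℝ} {W ε : ℝ} (hw : WOK w W) (hε : 0 < ε)
    (x0 : V) (g : V → ℝ) : Summable fun m : ℤ => ‖Cm w ε x0 g m‖ := by
  have hs : 0 < sV V ε := sV_pos hε
  exact Summable.of_nonneg_of_le (fun m => norm_nonneg _) (fun m => norm_Cm_le hw hε x0 g m)
    ((summable_int_gauss (a := 2 * π ^ 2 / sV V ε) (by positivity)).mul_right
      (Cm w ε x0 g 0).re)

theorem tsum_Cm [Nonempty V] {w : (V → ℤ) → ℝ} {W ε : ℝ} (hw : WOK w W) (hε : 0 < ε)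
    (x0 : V) (g : V → ℝ) (c : ℝ) :
    (ZZ w ε (fun x => g x + c) : ℂ) =
      ∑' m : ℤ, Cm w ε x0 g m * Complex.exp (2 * π * Complex.I * m * c) := by
  rw [tsum_class hw hε x0 g c, Complex.ofReal_tsum]
  rw [tsum_congr fun h : {h : V → ℤ // h x0 = 0} => tsum_TT_m w hε g c h.1]
  rw [← tsum_congr fun m : ℤ => tsum_TT_h w ε x0 g c m]
  have h : Summable (Function.uncurry fun (h : {h : V → ℤ // h x0 = 0}) (m : ℤ) =>
    TT w ε g c h.1 m) := summable_TT hw hε x0 g c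
  exact h.tsum_comm.symm

theorem hasSum_Cm [Nonempty V] {w : (V → ℤ) → ℝ} {W ε : ℝ} (hw : WOK w W) (hε : 0 < ε)
    (x0 : V) (g : V → ℝ) (c : ℝ) :
    HasSum (fun m : ℤ => Cm w ε x0 g m * Complex.exp (2 * π * Complex.I * m * c))
      (ZZ w ε (fun x => g x + c) : ℂ) := by
  rw [tsum_Cm hw hε x0 g c]
  refine (Summable.of_norm ((summable_Cm hw hε x0 g).congr fun m => ?_)).hasSum
  rw [norm_mul, norm_cexp_mul, mul_one]

theorem integral_cexp_int (k : ℤ) :
    ∫ c in (0:ℝ)..1, Complex.exp (2 * π * Complex.I * k * c) = if k = 0 then 1 else 0 := by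
  split_ifs with hk
  · subst hk; simp
  · have hk' : (k : ℂ) ≠ 0 := by exact_mod_cast hk
    have hpi : (π : ℂ) ≠ 0 := by exact_mod_cast Real.pi_ne_zero
    have h0 : (2 * π * Complex.I * k : ℂ) ≠ 0 := by
      refine mul_ne_zero (mul_ne_zero (mul_ne_zero two_ne_zero hpi) Complex.I_ne_zero) hk'
    rw [integral_exp_mul_complex h0]
    have h1 : Complex.exp (2 * π * Complex.I * k * (1:ℝ)) = 1 := by
      rw [show (2 * π * Complex.I * k * (1:ℝ) : ℂ) = k * (2 * π * Complex.I) by push_cast; ring]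
      exact Complex.exp_int_mul_two_pi_mul_I k
    rw [h1]
    simp

theorem fourier_extract {a : ℤ → ℂ} (ha : Summable fun n => ‖a n‖) {F : ℝ → ℂ}
    (hF : ∀ c : ℝ, HasSum (fun n : ℤ => a n * Complex.exp (2 * π * Complex.I * n * c)) (F c))
    (m : ℤ) :
    ∫ c in (0:ℝ)..1, F c * Complex.exp (-(2 * π * Complex.I * m * c)) = a m := by
  have h1 : ∀ (n : ℤ) (c : ℝ), a n * Complex.exp (2 * π * Complex.I * n * c) *
      Complex.exp (-(2 * π * Complex.I * m * c)) =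
      a n * Complex.exp (2 * π * Complex.I * ((n - m : ℤ) : ℂ) * c) := by
    intro n c
    rw [mul_assoc, ← Complex.exp_add]
    congr 2
    push_cast
    ring
  have h := intervalIntegral.hasSum_integral_of_dominated_convergence (μ := volume)
    (a := (0:ℝ)) (b := 1) (F := fun n c => a n * Complex.exp (2 * π * Complex.I * ((n - m : ℤ) : ℂ) * c))
    (f := fun c => F c * Complex.exp (-(2 * π * Complex.I * m * c)))
    (fun n _ => ‖a n‖) (fun n => (by fun_prop : Continuous fun c : ℝ =>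
      a n * Complex.exp (2 * π * Complex.I * ((n - m : ℤ) : ℂ) * c)).aestronglyMeasurable)
    (fun n => Filter.Eventually.of_forall fun c _ => by
      rw [norm_mul, norm_cexp_mul, mul_one])
    (Filter.Eventually.of_forall fun c _ => ha) (by simp)
    (Filter.Eventually.of_forall fun c _ => by
      have := (hF c).mul_right (Complex.exp (-(2 * π * Complex.I * m * c)))
      simpa only [h1] using this)
  have h2 : ∀ n : ℤ, ∫ c in (0:ℝ)..1, a n * Complex.exp (2 * π * Complex.I * ((n - m : ℤ) : ℂ) * c)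
      = if n = m then a m else 0 := by
    intro n
    rw [intervalIntegral.integral_const_mul, integral_cexp_int]
    by_cases hn : n = m
    · simp [hn]
    · have : n - m ≠ 0 := sub_ne_zero.2 hn
      simp [hn, this]
  simp only [h2] at h
  exact h.unique (by simpa using hasSum_ite_eq m (a m))

/-- the Fourier coefficients of `c ↦ Z(g + c)` -/
def Zm (w : (V → ℤ) → ℝ) (ε : ℝ) (g : V → ℝ) (m : ℤ) : ℂ :=
  ∫ c in (0:ℝ)..1, (ZZ w ε (fun x => g x + c) : ℂ) * Complex.exp (-(2 * π * Complex.I * m * c))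

theorem Zm_eq [Nonempty V] {w : (V → ℤ) → ℝ} {W ε : ℝ} (hw : WOK w W) (hε : 0 < ε)
    (x0 : V) (g : V → ℝ) (m : ℤ) : Zm w ε g m = Cm w ε x0 g m :=
  fourier_extract (summable_Cm hw hε x0 g) (fun c => hasSum_Cm hw hε x0 g c) m

theorem norm_Zm_le [Nonempty V] {w : (V → ℤ) → ℝ} {W ε : ℝ} (hw : WOK w W) (hε : 0 < ε)
    (g : V → ℝ) (m : ℤ) :
    ‖Zm w ε g m‖ ≤ Real.exp (-(2 * π ^ 2 / sV V ε) * (m : ℝ) ^ 2) * (Zm w ε g 0).re := by
  have x0 : V := Classical.arbitrary V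
  rw [Zm_eq hw hε x0, Zm_eq hw hε x0]
  exact norm_Cm_le hw hε x0 g m

theorem summable_Zm [Nonempty V] {w : (V → ℤ) → ℝ} {W ε : ℝ} (hw : WOK w W) (hε : 0 < ε)
    (g : V → ℝ) : Summable fun m : ℤ => ‖Zm w ε g m‖ := by
  have x0 : V := Classical.arbitrary V
  refine (summable_Cm hw hε x0 g).congr fun m => ?_
  rw [Zm_eq hw hε x0]

theorem hasSum_Zm [Nonempty V] {w : (V → ℤ) → ℝ} {W ε : ℝ} (hw : WOK w W) (hε : 0 < ε)
    (g : V → ℝ) (c : ℝ) :
    HasSum (fun m : ℤ => Zm w ε g m * Complex.exp (2 * π * Complex.I * m * c))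
      (ZZ w ε (fun x => g x + c) : ℂ) := by
  have x0 : V := Classical.arbitrary V
  refine (hasSum_Cm hw hε x0 g c).congr_fun ?_
  intro m
  rw [Zm_eq hw hε x0]

/-! ### continuity and boundedness of `Z` -/

theorem gs_continuous (ε : ℝ) (h : V → ℤ) : Continuous fun f : V → ℝ => gs ε h f := by
  unfold gs
  fun_prop

theorem continuousOn_ZZ {w : (V → ℤ) → ℝ} {W ε : ℝ} (hw : WOK w W) (hε : 0 < ε) (R : ℝ) :
    ContinuousOn (fun f : V → ℝ => ∑' h : V → ℤ, w h * gs ε h f) {f : V → ℝ | ∀ x, |f x| < R} := by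
  have hW : 0 ≤ W := (hw.nonneg 0).trans (hw.le 0)
  refine continuousOn_tsum (u := fun h : V → ℤ => W * (Real.exp ((ε / 2) *
    (Fintype.card V * R ^ 2)) * Real.exp (-(ε / 4) * ∑ x, (h x : ℝ) ^ 2)))
    (fun h => ?_) ?_ fun h f hf => ?_
  · exact ((gs_continuous ε h).const_mul _).continuousOn
  · exact ((summable_gauss (by positivity)).mul_left _).mul_left _
  · rw [Real.norm_of_nonneg (mul_nonneg (hw.nonneg h) (gs_pos _ _ _).le)]
    exact mul_le_mul (hw.le h) (gs_le hε h fun x => (hf x).le) (gs_pos _ _ _).le hW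

theorem isOpen_box (R : ℝ) : IsOpen {f : V → ℝ | ∀ x, |f x| < R} := by
  rw [Set.setOf_forall]
  exact isOpen_iInter_of_finite fun x => isOpen_lt (by fun_prop) continuous_const

theorem ZZ_continuous {w : (V → ℤ) → ℝ} {W ε : ℝ} (hw : WOK w W) (hε : 0 < ε) :
    Continuous (ZZ w ε) := by
  rw [continuous_iff_continuousAt]
  intro f0
  have hmem : f0 ∈ {f : V → ℝ | ∀ x, |f x| < ∑ x, |f0 x| + 1} := by
    intro x
    have : |f0 x| ≤ ∑ x, |f0 x| :=
      Finset.single_le_sum (f := fun x => |f0 x|) (fun _ _ => abs_nonneg _) (Finset.mem_univ x)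
    linarith
  exact (continuousOn_ZZ hw hε (∑ x, |f0 x| + 1)).continuousAt ((isOpen_box _).mem_nhds hmem)

theorem tsum_pi_le {g : V → ℤ → ℝ} (h0 : ∀ x z, 0 ≤ g x z) (hg : ∀ x, Summable (g x)) {B : ℝ}
    (hB : ∀ x, ∑' z, g x z ≤ B) : ∑' n : V → ℤ, ∏ x, g x (n x) ≤ B ^ Fintype.card V := by
  refine Real.tsum_le_of_sum_le (fun h => Finset.prod_nonneg fun x _ => h0 x _) fun s => ?_
  calc ∑ n ∈ s, ∏ x, g x (n x)
      ≤ ∑ n ∈ Fintype.piFinset (fun i => s.image (fun n : V → ℤ => n i)), ∏ x, g x (n x) := by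
        refine Finset.sum_le_sum_of_subset_of_nonneg (fun n hn => ?_)
          (fun n _ _ => Finset.prod_nonneg fun i _ => h0 _ _)
        simp only [Fintype.mem_piFinset]
        exact fun i => Finset.mem_image_of_mem (fun n : V → ℤ => n i) hn
    _ = ∏ x, ∑ z ∈ s.image (fun n : V → ℤ => n x), g x z := (Finset.prod_univ_sum _ _).symm
    _ ≤ ∏ _x : V, B := Finset.prod_le_prod (fun i _ => Finset.sum_nonneg fun z _ => h0 i z)
          fun x _ => ((hg x).sum_le_tsum _ fun z _ => h0 x z).trans (hB x)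
    _ = B ^ Fintype.card V := by simp

theorem theta_le {s : ℝ} (hs : 0 < s) (t : ℝ) :
    ∑' j : ℤ, Real.exp (-(s / 2) * (t - j) ^ 2) ≤
      Real.sqrt (2 * π / s) * ∑' m : ℤ, Real.exp (-(2 * π ^ 2 / s) * (m : ℝ) ^ 2) := by
  have hsum : Summable fun m : ℤ => Real.exp (-(2 * π ^ 2 / s) * (m : ℝ) ^ 2) :=
    summable_int_gauss (by positivity)
  have h := theta hs t
  have h2 := congrArg norm h
  rw [Complex.norm_real, Real.norm_of_nonneg (tsum_nonneg fun _ => (Real.exp_pos _).le),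
    norm_mul, Complex.norm_real, Real.norm_of_nonneg (Real.sqrt_nonneg _)] at h2
  rw [h2]
  refine mul_le_mul_of_nonneg_left ?_ (Real.sqrt_nonneg _)
  have h3 : ∀ m : ℤ, ‖((Real.exp (-(2 * π ^ 2 / s) * (m : ℝ) ^ 2) : ℝ) : ℂ) *
      Complex.exp (2 * π * Complex.I * m * t)‖ = Real.exp (-(2 * π ^ 2 / s) * (m : ℝ) ^ 2) := by
    intro m
    rw [norm_mul, norm_cexp_mul, mul_one, Complex.norm_real, Real.norm_of_nonneg
      (Real.exp_pos _).le]
  refine (norm_tsum_le_tsum_norm (hsum.congr fun m => (h3 m).symm)).trans (le_of_eq ?_)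
  exact tsum_congr h3

theorem ZZ_bdd {w : (V → ℤ) → ℝ} {W ε : ℝ} (hw : WOK w W) (hε : 0 < ε) :
    ∃ C : ℝ, 0 < C ∧ ∀ f, ZZ w ε f ≤ C := by
  have hW : 0 < W := by
    obtain ⟨h0, hp⟩ := hw.pos
    exact hp.trans_le (hw.le h0)
  set B : ℝ := Real.sqrt (2 * π / ε) * ∑' m : ℤ, Real.exp (-(2 * π ^ 2 / ε) * (m : ℝ) ^ 2)
    with hB
  have hB0 : 0 ≤ B := mul_nonneg (Real.sqrt_nonneg _) (tsum_nonneg fun _ => (Real.exp_pos _).le)
  refine ⟨W * (B + 1) ^ Fintype.card V, by positivity, fun f => ?_⟩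
  have hsx : ∀ t : ℝ, Summable fun j : ℤ => Real.exp (-(ε / 2) * ((j : ℝ) - t) ^ 2) := by
    intro t
    have h3 := (summable_int_gauss (a := ε / 4) (by positivity)).mul_left
      (Real.exp (ε / 2 * t ^ 2))
    refine Summable.of_nonneg_of_le (fun _ => (Real.exp_pos _).le) (fun j => ?_) h3
    rw [← Real.exp_add]
    apply Real.exp_le_exp.2
    nlinarith [mul_nonneg hε.le (sq_nonneg ((j : ℝ) - 2 * t))]
  have h2 : ∑' h : V → ℤ, gs ε h f ≤ B ^ Fintype.card V := by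
    have h3 := tsum_pi_le (g := fun (x : V) (j : ℤ) => Real.exp (-(ε / 2) * ((j : ℝ) - f x) ^ 2))
      (fun _ _ => (Real.exp_pos _).le) (fun x => hsx (f x)) (B := B) fun x => by
        refine le_trans (le_of_eq (tsum_congr fun j => ?_)) (theta_le hε (f x))
        congr 1
        ring
    refine le_trans (le_of_eq (tsum_congr fun h => ?_)) h3
    exact gs_eq_prod ε h f
  calc ZZ w ε f ≤ ∑' h : V → ℤ, W * gs ε h f :=
        (hw.summable hε f).tsum_le_tsum (fun h => mul_le_mul_of_nonneg_right (hw.le h)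
          (gs_pos _ _ _).le) ((gs_summable hε f).mul_left W)
    _ = W * ∑' h : V → ℤ, gs ε h f := tsum_mul_left
    _ ≤ W * (B + 1) ^ Fintype.card V := by
        refine mul_le_mul_of_nonneg_left (h2.trans ?_) hW.le
        exact pow_le_pow_left₀ hB0 (by linarith) _

/-! ### the free energy and its charges -/

/-- the free energy of the background -/
def UU (w : (V → ℤ) → ℝ) (ε : ℝ) (f : V → ℝ) : ℝ := -Real.log (ZZ w ε f / ZZ w ε 0)

/-- average over constants -/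
def Ub (w : (V → ℤ) → ℝ) (ε : ℝ) (g : V → ℝ) : ℝ :=
  ∫ c in (0:ℝ)..1, UU w ε (fun x => g x + c)

/-- charge `m` part of `-U` -/
def xm (w : (V → ℤ) → ℝ) (ε : ℝ) (g : V → ℝ) (m : ℤ) : ℂ :=
  -∫ c in (0:ℝ)..1, (UU w ε (fun x => g x + c) : ℂ) * Complex.exp (-(2 * π * Complex.I * m * c))

theorem ZZ_eq_exp {w : (V → ℤ) → ℝ} {W ε : ℝ} (hw : WOK w W) (hε : 0 < ε) (f : V → ℝ) :
    ZZ w ε f = ZZ w ε 0 * Real.exp (-UU w ε f) := by
  unfold UU
  rw [neg_neg, Real.exp_log (div_pos (ZZ_pos hw hε f) (ZZ_pos hw hε 0))]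
  field_simp [(ZZ_pos hw hε 0).ne']

theorem UU_continuous {w : (V → ℤ) → ℝ} {W ε : ℝ} (hw : WOK w W) (hε : 0 < ε) :
    Continuous (UU w ε) := by
  unfold UU
  refine (Continuous.log ((ZZ_continuous hw hε).div_const _) fun f => ?_).neg
  exact (div_pos (ZZ_pos hw hε f) (ZZ_pos hw hε 0)).ne'

theorem cont_line {F : (V → ℝ) → ℝ} (hF : Continuous F) (g : V → ℝ) :
    Continuous fun c : ℝ => F (fun x => g x + c) :=
  hF.comp (by fun_prop)

theorem dev_le {w : (V → ℤ) → ℝ} {W ε : ℝ} (hw : WOK w W) (hε : 0 < ε) {w0 : ℝ} {g : V → ℝ}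
    (hosc : ∀ c c' : ℝ, |UU w ε (fun x => g x + c) - UU w ε (fun x => g x + c')| ≤ w0) (c : ℝ) :
    |UU w ε (fun x => g x + c) - Ub w ε g| ≤ w0 := by
  have hc := cont_line (UU_continuous hw hε) g
  have h1 : UU w ε (fun x => g x + c) - Ub w ε g =
      ∫ c' in (0:ℝ)..1, (UU w ε (fun x => g x + c) - UU w ε (fun x => g x + c')) := by
    rw [intervalIntegral.integral_sub (by simp) (hc.intervalIntegrable _ _)]
    simp [Ub]
  rw [h1]
  have h2 := intervalIntegral.norm_integral_le_of_norm_le_const (a := (0:ℝ)) (b := 1) (C := w0)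
    (f := fun c' => UU w ε (fun x => g x + c) - UU w ε (fun x => g x + c'))
    fun c' _ => hosc c c'
  simpa using h2

/-- remainder of the exponential of the deviation -/
def rr (w : (V → ℤ) → ℝ) (ε : ℝ) (g : V → ℝ) (c : ℝ) : ℝ :=
  Real.exp (-(UU w ε (fun x => g x + c) - Ub w ε g)) - 1 +
    (UU w ε (fun x => g x + c) - Ub w ε g)

theorem rr_le {w : (V → ℤ) → ℝ} {W ε : ℝ} (hw : WOK w W) (hε : 0 < ε) {w0 : ℝ} {g : V → ℝ}
    (hosc : ∀ c c' : ℝ, |UU w ε (fun x => g x + c) - UU w ε (fun x => g x + c')| ≤ w0)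
    (h1 : w0 ≤ 1) (c : ℝ) : |rr w ε g c| ≤ w0 ^ 2 := by
  have h2 := dev_le hw hε hosc c
  have h3 := Real.abs_exp_sub_one_sub_id_le
    (x := -(UU w ε (fun x => g x + c) - Ub w ε g)) (by rw [abs_neg]; exact h2.trans h1)
  have h4 : rr w ε g c = Real.exp (-(UU w ε (fun x => g x + c) - Ub w ε g)) - 1 -
      (-(UU w ε (fun x => g x + c) - Ub w ε g)) := by unfold rr; ring
  rw [h4]
  refine h3.trans ?_
  rw [neg_sq, ← sq_abs]
  exact pow_le_pow_left₀ (abs_nonneg _) h2 2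

theorem rr_continuous {w : (V → ℤ) → ℝ} {W ε : ℝ} (hw : WOK w W) (hε : 0 < ε) (g : V → ℝ) :
    Continuous (rr w ε g) := by
  have hc := cont_line (UU_continuous hw hε) g
  unfold rr
  fun_prop

theorem Zm_split {w : (V → ℤ) → ℝ} {W ε : ℝ} (hw : WOK w W) (hε : 0 < ε) (g : V → ℝ) (m : ℤ) :
    Zm w ε g m = ((ZZ w ε 0 * Real.exp (-Ub w ε g) : ℝ) : ℂ) *
      ((if m = 0 then 1 else 0) * (1 + Ub w ε g) + xm w ε g m +
        ∫ c in (0:ℝ)..1, (rr w ε g c : ℂ) * Complex.exp (-(2 * π * Complex.I * m * c))) := by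
  have hc := cont_line (UU_continuous hw hε) g
  have hr := rr_continuous hw hε g
  have h0 : ∀ c : ℝ, (ZZ w ε (fun x => g x + c) : ℂ) = ((ZZ w ε 0 * Real.exp (-Ub w ε g) : ℝ) : ℂ)
      * ((1 + Ub w ε g : ℝ) - (UU w ε (fun x => g x + c) : ℂ) + (rr w ε g c : ℂ)) := by
    intro c
    rw [ZZ_eq_exp hw hε]
    have : Real.exp (-UU w ε (fun x => g x + c)) = Real.exp (-Ub w ε g) *
        ((1 + Ub w ε g) - UU w ε (fun x => g x + c) + rr w ε g c) := by
      unfold rr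
      have h5 : Real.exp (-UU w ε (fun x => g x + c)) = Real.exp (-Ub w ε g) *
          Real.exp (-(UU w ε (fun x => g x + c) - Ub w ε g)) := by
        rw [← Real.exp_add]; congr 1; ring
      rw [h5]
      ring
    rw [this]
    push_cast
    ring
  have hE : Continuous fun c : ℝ => Complex.exp (-(2 * π * Complex.I * m * c)) := by fun_prop
  have h6 : ∀ c : ℝ, (ZZ w ε (fun x => g x + c) : ℂ) * Complex.exp (-(2 * π * Complex.I * m * c)) =
      ((ZZ w ε 0 * Real.exp (-Ub w ε g) : ℝ) : ℂ) *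
      (((1 + Ub w ε g : ℝ) : ℂ) * Complex.exp (-(2 * π * Complex.I * m * c)) -
        (UU w ε (fun x => g x + c) : ℂ) * Complex.exp (-(2 * π * Complex.I * m * c)) +
        (rr w ε g c : ℂ) * Complex.exp (-(2 * π * Complex.I * m * c))) := by
    intro c
    rw [h0 c]
    ring
  have h7 : ∫ c in (0:ℝ)..1, Complex.exp (-(2 * π * Complex.I * m * c)) =
      if m = 0 then 1 else 0 := by
    have h8 := integral_cexp_int (-m)
    have h9 : ∀ c : ℝ, Complex.exp (2 * π * Complex.I * ((-m : ℤ) : ℂ) * c) =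
        Complex.exp (-(2 * π * Complex.I * m * c)) := by
      intro c; congr 1; push_cast; ring
    simp only [h9] at h8
    rw [h8]
    simp
  unfold Zm
  simp only [h6]
  rw [intervalIntegral.integral_const_mul]
  congr 1
  have i1 : IntervalIntegrable (fun c : ℝ => ((1 + Ub w ε g : ℝ) : ℂ) *
      Complex.exp (-(2 * π * Complex.I * m * c))) volume 0 1 :=
    (continuous_const.mul hE).intervalIntegrable _ _
  have i2 : IntervalIntegrable (fun c : ℝ => (UU w ε (fun x => g x + c) : ℂ) *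
      Complex.exp (-(2 * π * Complex.I * m * c))) volume 0 1 :=
    ((Complex.continuous_ofReal.comp hc).mul hE).intervalIntegrable _ _
  have i3 : IntervalIntegrable (fun c : ℝ => (rr w ε g c : ℂ) *
      Complex.exp (-(2 * π * Complex.I * m * c))) volume 0 1 :=
    ((Complex.continuous_ofReal.comp hr).mul hE).intervalIntegrable _ _
  rw [intervalIntegral.integral_add (i1.sub i2) i3, intervalIntegral.integral_sub i1 i2,
    intervalIntegral.integral_const_mul, h7]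
  unfold xm
  push_cast
  ring

theorem rr_int_le {w : (V → ℤ) → ℝ} {W ε : ℝ} (hw : WOK w W) (hε : 0 < ε) {w0 : ℝ} {g : V → ℝ}
    (hosc : ∀ c c' : ℝ, |UU w ε (fun x => g x + c) - UU w ε (fun x => g x + c')| ≤ w0)
    (h1 : w0 ≤ 1) (m : ℤ) :
    ‖∫ c in (0:ℝ)..1, (rr w ε g c : ℂ) * Complex.exp (-(2 * π * Complex.I * m * c))‖ ≤ w0 ^ 2 := by
  have h2 := intervalIntegral.norm_integral_le_of_norm_le_const (a := (0:ℝ)) (b := 1)
    (C := w0 ^ 2)
    (f := fun c : ℝ => (rr w ε g c : ℂ) * Complex.exp (-(2 * π * Complex.I * m * c)))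
    fun c _ => by
      rw [norm_mul, norm_cexp_neg_mul, mul_one, Complex.norm_real]
      exact rr_le hw hε hosc h1 c
  simpa using h2

/-- **(C6b)**, nonzero charges -/
theorem Zm_sub_xm {w : (V → ℤ) → ℝ} {W ε : ℝ} (hw : WOK w W) (hε : 0 < ε) {w0 : ℝ} {g : V → ℝ}
    (hosc : ∀ c c' : ℝ, |UU w ε (fun x => g x + c) - UU w ε (fun x => g x + c')| ≤ w0)
    (h1 : w0 ≤ 1) {m : ℤ} (hm : m ≠ 0) :
    ‖Zm w ε g m - ((ZZ w ε 0 * Real.exp (-Ub w ε g) : ℝ) : ℂ) * xm w ε g m‖ ≤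
      w0 ^ 2 * (ZZ w ε 0 * Real.exp (-Ub w ε g)) := by
  have hp : 0 < ZZ w ε 0 * Real.exp (-Ub w ε g) := mul_pos (ZZ_pos hw hε 0) (Real.exp_pos _)
  rw [Zm_split hw hε, if_neg hm, zero_mul, zero_add, mul_add, add_sub_cancel_left, norm_mul,
    Complex.norm_real, Real.norm_of_nonneg hp.le, mul_comm (w0 ^ 2)]
  exact mul_le_mul_of_nonneg_left (rr_int_le hw hε hosc h1 m) hp.le

theorem xm_zero {w : (V → ℤ) → ℝ} {ε : ℝ} (g : V → ℝ) :
    xm w ε g 0 = -(Ub w ε g : ℂ) := by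
  unfold xm Ub
  rw [← intervalIntegral.integral_ofReal]
  simp

/-- **(C6b)**, charge zero -/
theorem Zm_zero_sub {w : (V → ℤ) → ℝ} {W ε : ℝ} (hw : WOK w W) (hε : 0 < ε) {w0 : ℝ} {g : V → ℝ}
    (hosc : ∀ c c' : ℝ, |UU w ε (fun x => g x + c) - UU w ε (fun x => g x + c')| ≤ w0)
    (h1 : w0 ≤ 1) :
    ‖Zm w ε g 0 - ((ZZ w ε 0 * Real.exp (-Ub w ε g) : ℝ) : ℂ)‖ ≤
      w0 ^ 2 * (ZZ w ε 0 * Real.exp (-Ub w ε g)) := by
  have hp : 0 < ZZ w ε 0 * Real.exp (-Ub w ε g) := mul_pos (ZZ_pos hw hε 0) (Real.exp_pos _)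
  have h2 : Zm w ε g 0 - ((ZZ w ε 0 * Real.exp (-Ub w ε g) : ℝ) : ℂ) =
      ((ZZ w ε 0 * Real.exp (-Ub w ε g) : ℝ) : ℂ) *
      ∫ c in (0:ℝ)..1, (rr w ε g c : ℂ) * Complex.exp (-(2 * π * Complex.I * (0 : ℤ) * c)) := by
    rw [Zm_split hw hε, xm_zero, if_pos rfl]
    ring
  rw [h2, norm_mul, Complex.norm_real, Real.norm_of_nonneg hp.le, mul_comm (w0 ^ 2)]
  exact mul_le_mul_of_nonneg_left (rr_int_le hw hε hosc h1 0) hp.le

/-! ### the Gaussian coarse step (C1) -/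

/-- symmetric coercive forms -/
structure AOK (A : Matrix V V ℝ) (a : ℝ) : Prop where
  symm : Aᵀ = A
  pos : 0 < a
  coer : ∀ g : V → ℝ, a * ∑ x, g x ^ 2 ≤ g ⬝ᵥ A *ᵥ g

/-- Gaussian factor of the form `A` -/
def gA (A : Matrix V V ℝ) (g : V → ℝ) : ℝ := Real.exp (-(1 / 2) * (g ⬝ᵥ A *ᵥ g))

/-- `A + ε` -/
def BB (A : Matrix V V ℝ) (ε : ℝ) : Matrix V V ℝ := A + ε • (1 : Matrix V V ℝ)

/-- the new mass form `ε - ε² (A + ε)⁻¹` -/
def TH (A : Matrix V V ℝ) (ε : ℝ) : Matrix V V ℝ :=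
  ε • (1 : Matrix V V ℝ) - ε ^ 2 • (BB A ε)⁻¹

theorem gA_pos (A : Matrix V V ℝ) (g : V → ℝ) : 0 < gA A g := Real.exp_pos _

theorem gA_continuous (A : Matrix V V ℝ) : Continuous (gA A) := by
  unfold gA
  simp only [dotProduct, mulVec]
  fun_prop

theorem integrable_prod_gauss {a : ℝ} (ha : 0 < a) :
    Integrable fun g : V → ℝ => Real.exp (-a * ∑ x, g x ^ 2) := by
  have h : Integrable fun g : V → ℝ => ∏ x, Real.exp (-a * g x ^ 2) :=
    Integrable.fintype_prod fun x => integrable_exp_neg_mul_sq ha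
  refine h.congr (Eventually.of_forall fun g => ?_)
  simp only
  rw [Finset.mul_sum, Real.exp_sum]

theorem AOK.integrable {A : Matrix V V ℝ} {a : ℝ} (hA : AOK A a) : Integrable (gA A) := by
  have ha := hA.pos
  refine (integrable_prod_gauss (V := V) (a := a / 2) (by positivity)).mono'
    (gA_continuous A).aestronglyMeasurable (Eventually.of_forall fun g => ?_)
  rw [Real.norm_of_nonneg (gA_pos _ _).le]
  unfold gA
  apply Real.exp_le_exp.2
  have := hA.coer g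
  nlinarith

theorem BB_quad (A : Matrix V V ℝ) (ε : ℝ) (g : V → ℝ) :
    g ⬝ᵥ BB A ε *ᵥ g = g ⬝ᵥ A *ᵥ g + ε * ∑ x, g x ^ 2 := by
  unfold BB
  rw [add_mulVec, dotProduct_add, smul_mulVec, one_mulVec, dotProduct_smul, smul_eq_mul]
  congr 2
  simp only [dotProduct]
  exact Finset.sum_congr rfl fun x _ => by ring

theorem AOK.BB {A : Matrix V V ℝ} {a ε : ℝ} (hA : AOK A a) (hε : 0 < ε) :
    AOK (BB A ε) (a + ε) where
  symm := by
    unfold H164.BB
    rw [transpose_add, transpose_smul, transpose_one, hA.symm]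
  pos := add_pos hA.pos hε
  coer := fun g => by
    rw [BB_quad, add_mul]
    linarith [hA.coer g]

theorem AOK.det_ne {A : Matrix V V ℝ} {a : ℝ} (hA : AOK A a) : A.det ≠ 0 := by
  intro h0
  obtain ⟨v, hv, hv2⟩ := Matrix.exists_mulVec_eq_zero_iff.2 h0
  have h1 := hA.coer v
  rw [hv2, dotProduct_zero] at h1
  have h2 : ∑ x, v x ^ 2 ≤ 0 := by
    by_contra h3
    rw [not_le] at h3
    have := mul_pos hA.pos h3
    linarith
  have h3 : ∀ x ∈ Finset.univ, v x ^ 2 = 0 :=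
    (Finset.sum_eq_zero_iff_of_nonneg fun x _ => sq_nonneg (v x)).1
      (le_antisymm h2 (Finset.sum_nonneg fun x _ => sq_nonneg (v x)))
  apply hv
  funext x
  exact pow_eq_zero_iff (two_ne_zero) |>.1 (h3 x (Finset.mem_univ x))

theorem quad_symm {B : Matrix V V ℝ} (hB : Bᵀ = B) (u v : V → ℝ) :
    u ⬝ᵥ B *ᵥ v = v ⬝ᵥ B *ᵥ u := by
  rw [dotProduct_mulVec, ← mulVec_transpose, hB, dotProduct_comm]

theorem complete_square {A : Matrix V V ℝ} {a ε : ℝ} (hA : AOK A a) (hε : 0 < ε)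
    (u g : V → ℝ) :
    g ⬝ᵥ A *ᵥ g + ε * ∑ x, (u x - g x) ^ 2 =
      (g - ε • ((BB A ε)⁻¹ *ᵥ u)) ⬝ᵥ BB A ε *ᵥ (g - ε • ((BB A ε)⁻¹ *ᵥ u)) +
        u ⬝ᵥ TH A ε *ᵥ u := by
  have hB := hA.BB hε
  have hdet : IsUnit (BB A ε).det := isUnit_iff_ne_zero.2 hB.det_ne
  set B := BB A ε with hBdef
  set v := B⁻¹ *ᵥ u with hv
  have hBv : B *ᵥ v = u := by
    rw [hv, mulVec_mulVec, mul_nonsing_inv _ hdet, one_mulVec]
  have h1 : (g - ε • v) ⬝ᵥ B *ᵥ (g - ε • v) =
      g ⬝ᵥ B *ᵥ g - 2 * ε * (g ⬝ᵥ u) + ε ^ 2 * (u ⬝ᵥ v) := by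
    rw [mulVec_sub, mulVec_smul, hBv, sub_dotProduct, dotProduct_sub, dotProduct_sub,
      smul_dotProduct, smul_dotProduct, dotProduct_smul, dotProduct_smul,
      quad_symm hB.symm v g, hBv]
    simp only [smul_eq_mul]
    rw [dotProduct_comm v u]
    ring
  have h2 : u ⬝ᵥ TH A ε *ᵥ u = ε * (u ⬝ᵥ u) - ε ^ 2 * (u ⬝ᵥ v) := by
    unfold TH
    rw [sub_mulVec, smul_mulVec, smul_mulVec, one_mulVec, dotProduct_sub,
      dotProduct_smul, dotProduct_smul, ← hBdef, ← hv]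
    simp only [smul_eq_mul]
  rw [h1, h2, BB_quad]
  have h3 : ∑ x, (u x - g x) ^ 2 = u ⬝ᵥ u - 2 * (g ⬝ᵥ u) + ∑ x, g x ^ 2 := by
    simp only [dotProduct]
    rw [Finset.mul_sum, ← Finset.sum_sub_distrib, ← Finset.sum_add_distrib]
    exact Finset.sum_congr rfl fun x _ => by ring
  rw [h3]
  ring

/-- the Gaussian constant -/
def cB (A : Matrix V V ℝ) (ε : ℝ) : ℝ := ∫ g : V → ℝ, gA (BB A ε) g

theorem cB_pos {A : Matrix V V ℝ} {a ε : ℝ} (hA : AOK A a) (hε : 0 < ε) : 0 < cB A ε := by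
  unfold cB
  exact integral_exp_pos (hA.BB hε).integrable

theorem step_one {A : Matrix V V ℝ} {a ε : ℝ} (hA : AOK A a) (hε : 0 < ε)
    (u : V → ℝ) :
    ∫ g : V → ℝ, gA A g * Real.exp (-(ε / 2) * ∑ x, (u x - g x) ^ 2) =
      cB A ε * Real.exp (-(1 / 2) * (u ⬝ᵥ TH A ε *ᵥ u)) := by
  have h : ∀ g : V → ℝ, gA A g * Real.exp (-(ε / 2) * ∑ x, (u x - g x) ^ 2) =
      gA (BB A ε) (g - ε • ((BB A ε)⁻¹ *ᵥ u)) * Real.exp (-(1 / 2) * (u ⬝ᵥ TH A ε *ᵥ u)) := by
    intro g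
    unfold gA
    rw [← Real.exp_add, ← Real.exp_add]
    congr 1
    have := complete_square hA hε u g
    linear_combination (-(1 / 2)) * this
  simp only [h]
  rw [integral_mul_const]
  congr 1
  exact integral_sub_right_eq_self (μ := volume) (fun g => gA (BB A ε) g) _


/-- partition function with the mass form `T` -/
def ZT (w : (V → ℤ) → ℝ) (T : Matrix V V ℝ) (f : V → ℝ) : ℝ :=
  ∑' h : V → ℤ, w h * Real.exp (-(1 / 2) *
    ((fun x => (h x : ℝ) - f x) ⬝ᵥ T *ᵥ (fun x => (h x : ℝ) - f x)))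

theorem step_h {A : Matrix V V ℝ} {a ε : ℝ} (hA : AOK A a) (hε : 0 < ε)
    (h : V → ℤ) (f : V → ℝ) :
    ∫ g : V → ℝ, gA A g * gs ε h (f + g) =
      cB A ε * Real.exp (-(1 / 2) *
    ((fun x => (h x : ℝ) - f x) ⬝ᵥ TH A ε *ᵥ (fun x => (h x : ℝ) - f x))) := by
  rw [← step_one hA hε]
  refine integral_congr_ae (Eventually.of_forall fun g => ?_)
  simp only [gs, Pi.add_apply]
  congr 3
  exact Finset.sum_congr rfl fun x _ => by ring

theorem gA_mul_integrable {A : Matrix V V ℝ} {a : ℝ} (hA : AOK A a) {F : (V → ℝ) → ℝ}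
    (hF : Continuous F) {C : ℝ} (hC : ∀ g, |F g| ≤ C) : Integrable fun g => gA A g * F g := by
  refine (hA.integrable.mul_const C).mono' ((gA_continuous A).mul hF).aestronglyMeasurable
    (Eventually.of_forall fun g => ?_)
  rw [norm_mul, Real.norm_of_nonneg (gA_pos _ _).le]
  exact mul_le_mul_of_nonneg_left (hC g) (gA_pos _ _).le

theorem gs_le_one {ε : ℝ} (hε : 0 < ε) (h : V → ℤ) (f : V → ℝ) : gs ε h f ≤ 1 := by
  unfold gs
  apply Real.exp_le_one_iff.2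
  have : 0 ≤ ∑ x, ((h x : ℝ) - f x) ^ 2 := Finset.sum_nonneg fun x _ => sq_nonneg _
  nlinarith

/-- **(C1)** Gaussian average over the background = weaker mass form -/
theorem C1 {w : (V → ℤ) → ℝ} {W ε : ℝ} (hw : WOK w W) (hε : 0 < ε)
    {A : Matrix V V ℝ} {a : ℝ} (hA : AOK A a) (f : V → ℝ) :
    (Summable fun h : V → ℤ => w h * Real.exp (-(1 / 2) *
      ((fun x => (h x : ℝ) - f x) ⬝ᵥ TH A ε *ᵥ (fun x => (h x : ℝ) - f x)))) ∧
    ∫ g : V → ℝ, gA A g * ZZ w ε (f + g) = cB A ε * ZT w (TH A ε) f := by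
  obtain ⟨C, hC, hZ⟩ := ZZ_bdd hw hε
  have hcB := cB_pos hA hε
  have hcont : ∀ h : V → ℤ, Continuous fun g : V → ℝ => gs ε h (f + g) := fun h =>
    (gs_continuous ε h).comp (by fun_prop)
  have hint : ∀ h : V → ℤ, Integrable fun g : V → ℝ => gA A g * (w h * gs ε h (f + g)) := by
    intro h
    refine gA_mul_integrable hA ((hcont h).const_mul _) (C := W) fun g => ?_
    rw [abs_of_nonneg (mul_nonneg (hw.nonneg h) (gs_pos _ _ _).le)]
    calc w h * gs ε h (f + g) ≤ w h * 1 :=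
          mul_le_mul_of_nonneg_left (gs_le_one hε _ _) (hw.nonneg h)
      _ ≤ W := by rw [mul_one]; exact hw.le h
  have hval : ∀ h : V → ℤ, ∫ g : V → ℝ, gA A g * (w h * gs ε h (f + g)) =
      cB A ε * (w h * Real.exp (-(1 / 2) *
      ((fun x => (h x : ℝ) - f x) ⬝ᵥ TH A ε *ᵥ (fun x => (h x : ℝ) - f x)))) := by
    intro h
    have : ∀ g : V → ℝ, gA A g * (w h * gs ε h (f + g)) = w h * (gA A g * gs ε h (f + g)) :=
      fun g => by ring
    simp only [this]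
    rw [integral_const_mul, step_h hA hε]
    ring
  have hnn : ∀ (h : V → ℤ) (g : V → ℝ), 0 ≤ gA A g * (w h * gs ε h (f + g)) := fun h g =>
    mul_nonneg (gA_pos _ _).le (mul_nonneg (hw.nonneg h) (gs_pos _ _ _).le)
  have hsI : Summable fun h : V → ℤ => ∫ g : V → ℝ, ‖gA A g * (w h * gs ε h (f + g))‖ := by
    refine summable_of_sum_le (c := ∫ g : V → ℝ, gA A g * C)
      (fun h => integral_nonneg fun g => norm_nonneg _) fun s => ?_
    rw [← integral_finsetSum _ fun h _ => (hint h).norm]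
    refine integral_mono (integrable_finsetSum _ fun h _ => (hint h).norm)
      (hA.integrable.mul_const C) fun g => ?_
    simp only
    have h1 : ∑ h ∈ s, ‖gA A g * (w h * gs ε h (f + g))‖ =
        gA A g * ∑ h ∈ s, w h * gs ε h (f + g) := by
      rw [Finset.mul_sum]
      exact Finset.sum_congr rfl fun h _ => Real.norm_of_nonneg (hnn h g)
    rw [h1]
    refine mul_le_mul_of_nonneg_left ?_ (gA_pos _ _).le
    refine le_trans ?_ (hZ (f + g))
    exact (hw.summable hε (f + g)).sum_le_tsum _ fun h _ =>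
      mul_nonneg (hw.nonneg h) (gs_pos _ _ _).le
  have hmain := hasSum_integral_of_summable_integral_norm hint hsI
  have hsum1 : Summable fun h : V → ℤ => w h * Real.exp (-(1 / 2) *
      ((fun x => (h x : ℝ) - f x) ⬝ᵥ TH A ε *ᵥ (fun x => (h x : ℝ) - f x))) := by
    have h2 := hmain.summable
    simp only [hval] at h2
    exact (summable_mul_left_iff hcB.ne').1 h2
  refine ⟨hsum1, ?_⟩
  have h3 := hmain.tsum_eq
  simp only [hval] at h3
  rw [tsum_mul_left] at h3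
  unfold ZT
  rw [h3]
  refine integral_congr_ae (Eventually.of_forall fun g => ?_)
  simp only [ZZ]
  rw [tsum_mul_left]


/-! ### second order limits -/

theorem tendsto_cosh (x : ℝ) :
    Tendsto (fun c : ℝ => (Real.cosh (c * x) - 1) / c ^ 2) (𝓝[≠] 0) (𝓝 (x ^ 2 / 2)) := by
  have h1 : HasDerivAt (fun c : ℝ => Real.sinh (c * (x / 2))) (x / 2) 0 := by
    have h := ((hasDerivAt_id (0:ℝ)).mul_const (x / 2)).sinh
    simpa using h
  have h2 := h1.tendsto_slope_zero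
  have h3 : Tendsto (fun t : ℝ => 2 * (t⁻¹ • (Real.sinh ((0 + t) * (x / 2)) -
      Real.sinh (0 * (x / 2)))) ^ 2) (𝓝[≠] 0) (𝓝 (2 * (x / 2) ^ 2)) := (h2.pow 2).const_mul 2
  rw [show x ^ 2 / 2 = 2 * (x / 2) ^ 2 by ring]
  refine h3.congr' ?_
  filter_upwards [self_mem_nhdsWithin] with c hc
  have hc' : c ≠ 0 := hc
  rw [show c * x = 2 * (c * (x / 2)) by ring, Real.cosh_two_mul, Real.cosh_sq]
  simp only [zero_add, zero_mul, Real.sinh_zero, sub_zero, smul_eq_mul]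
  field_simp
  ring

theorem tendsto_cos (x : ℝ) :
    Tendsto (fun c : ℝ => (1 - Real.cos (c * x)) / c ^ 2) (𝓝[≠] 0) (𝓝 (x ^ 2 / 2)) := by
  have h1 : HasDerivAt (fun c : ℝ => Real.sin (c * (x / 2))) (x / 2) 0 := by
    have h := ((hasDerivAt_id (0:ℝ)).mul_const (x / 2)).sin
    simpa using h
  have h2 := h1.tendsto_slope_zero
  have h3 : Tendsto (fun t : ℝ => 2 * (t⁻¹ • (Real.sin ((0 + t) * (x / 2)) -
      Real.sin (0 * (x / 2)))) ^ 2) (𝓝[≠] 0) (𝓝 (2 * (x / 2) ^ 2)) := (h2.pow 2).const_mul 2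
  rw [show x ^ 2 / 2 = 2 * (x / 2) ^ 2 by ring]
  refine h3.congr' ?_
  filter_upwards [self_mem_nhdsWithin] with c hc
  have hc' : c ≠ 0 := hc
  rw [show c * x = 2 * (c * (x / 2)) by ring, Real.cos_two_mul, Real.cos_sq']
  simp only [zero_add, zero_mul, Real.sin_zero, sub_zero, smul_eq_mul]
  field_simp
  ring

theorem tendsto_exp_sq (k : ℝ) :
    Tendsto (fun c : ℝ => (Real.exp (k * c ^ 2) - 1) / c ^ 2) (𝓝[≠] 0) (𝓝 k) := by
  have h1 : HasDerivAt (fun y : ℝ => Real.exp (k * y)) k 0 := by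
    have h := ((hasDerivAt_id (0:ℝ)).const_mul k).exp
    simpa using h
  have h2 := h1.tendsto_slope_zero
  have h3 : Tendsto (fun c : ℝ => c ^ 2) (𝓝[≠] 0) (𝓝[≠] 0) := by
    refine tendsto_nhdsWithin_of_tendsto_nhds_of_eventually_within _ ?_ ?_
    · have : Tendsto (fun c : ℝ => c ^ 2) (𝓝 0) (𝓝 (0 ^ 2)) := (continuous_pow 2).tendsto 0
      rw [zero_pow two_ne_zero] at this
      exact this.mono_left nhdsWithin_le_nhds
    · filter_upwards [self_mem_nhdsWithin] with c hc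
      exact pow_ne_zero 2 hc
  refine (h2.comp h3).congr' ?_
  filter_upwards [self_mem_nhdsWithin] with c hc
  simp only [Function.comp, zero_add, mul_zero, Real.exp_zero, smul_eq_mul]
  rw [div_eq_inv_mul]

theorem cosh_sub_one_le {c x : ℝ} (hc : |c| ≤ 1) :
    Real.cosh (c * x) - 1 ≤ c ^ 2 * (x ^ 2 * Real.exp |x|) := by
  have h1 : ∀ y : ℝ, |Real.exp y - 1 - y| ≤ y ^ 2 * Real.exp |y| := by
    intro y
    have h := Complex.norm_exp_sub_sum_le_norm_mul_exp (y : ℂ) 2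
    rw [Finset.sum_range_succ, Finset.sum_range_succ, Finset.sum_range_zero] at h
    simp only [pow_zero, Nat.factorial_zero, Nat.cast_one, div_one, zero_add, pow_one,
      Nat.factorial_one, Complex.norm_real, Real.norm_eq_abs, sq_abs] at h
    rw [← Complex.ofReal_exp, ← Complex.ofReal_one, ← Complex.ofReal_add, ← Complex.ofReal_sub,
      Complex.norm_real, Real.norm_eq_abs] at h
    rwa [sub_sub]
  have h2 := abs_le.1 (h1 (c * x))
  have h3 := abs_le.1 (h1 (-(c * x)))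
  rw [Real.cosh_eq]
  rw [abs_neg, neg_sq] at h3
  have h4 : |c * x| ≤ |x| := by
    rw [abs_mul]
    calc |c| * |x| ≤ 1 * |x| := mul_le_mul_of_nonneg_right hc (abs_nonneg _)
      _ = |x| := one_mul _
  have h5 : (c * x) ^ 2 * Real.exp |c * x| ≤ c ^ 2 * (x ^ 2 * Real.exp |x|) := by
    rw [mul_pow, mul_assoc]
    exact mul_le_mul_of_nonneg_left (mul_le_mul_of_nonneg_left (Real.exp_le_exp.2 h4)
      (sq_nonneg _)) (sq_nonneg _)
  linarith [h2.2, h3.2]

theorem second_order {ι : Type*} {ω X : ι → ℝ} (hω : ∀ h, 0 ≤ ω h)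
    (hsum : Summable fun h => ω h * (X h ^ 2 * Real.exp |X h|))
    (hsum0 : ∀ c : ℝ, |c| ≤ 1 → Summable fun h => ω h * Real.cosh (c * X h))
    {P : ℤ → ℝ} (hP : Summable fun m : ℤ => |P m|)
    (hP2 : Summable fun m : ℤ => (m : ℝ) ^ 2 * |P m|) (k : ℝ)
    (hid : ∀ c : ℝ, ∑' h, ω h * Real.cosh (c * X h) =
      Real.exp (k * c ^ 2) * ∑' m : ℤ, P m * Real.cos (c * (2 * π * m))) :
    ∑' h, ω h = ∑' m, P m ∧
    ∑' h, ω h * X h ^ 2 = 2 * k * ∑' m, P m - 4 * π ^ 2 * ∑' m : ℤ, (m : ℝ) ^ 2 * P m := by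
  have h0 : ∑' h, ω h = ∑' m, P m := by
    have := hid 0
    simpa using this
  have hω1 : Summable ω := by
    have := hsum0 0 (by simp)
    simpa using this
  have hPs : Summable P := hP.of_abs
  have hPc : ∀ c : ℝ, Summable fun m : ℤ => P m * Real.cos (c * (2 * π * m)) := fun c => by
    refine Summable.of_norm_bounded hP fun m => ?_
    rw [norm_mul, Real.norm_eq_abs, Real.norm_eq_abs]
    exact mul_le_of_le_one_right (abs_nonneg _) (Real.abs_cos_le_one _)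
  refine ⟨h0, ?_⟩
  -- left side
  have hmem : ∀ᶠ c : ℝ in 𝓝[≠] 0, |c| ≤ 1 ∧ c ≠ 0 := by
    have h1 : ∀ᶠ c : ℝ in 𝓝[≠] 0, |c| ≤ 1 := by
      have : ∀ᶠ c : ℝ in 𝓝 0, |c| ≤ 1 := by
        have h2 : Set.Icc (-1 : ℝ) 1 ∈ 𝓝 (0:ℝ) := Icc_mem_nhds (by norm_num) (by norm_num)
        filter_upwards [h2] with c hc
        exact abs_le.2 ⟨hc.1, hc.2⟩
      exact this.filter_mono nhdsWithin_le_nhds
    exact h1.and self_mem_nhdsWithin
  have hL : Tendsto (fun c : ℝ => ∑' h, ω h * ((Real.cosh (c * X h) - 1) / c ^ 2)) (𝓝[≠] 0)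
      (𝓝 (∑' h, ω h * (X h ^ 2 / 2))) := by
    refine tendsto_tsum_of_dominated_convergence hsum (fun h => (tendsto_cosh (X h)).const_mul _)
      ?_
    filter_upwards [hmem] with c hc h
    have hc0 : c ≠ 0 := hc.2
    have hc2 : 0 < c ^ 2 := by positivity
    have h1 : 0 ≤ Real.cosh (c * X h) - 1 := by linarith [Real.one_le_cosh (c * X h)]
    rw [Real.norm_of_nonneg (mul_nonneg (hω h) (div_nonneg h1 hc2.le))]
    refine mul_le_mul_of_nonneg_left ?_ (hω h)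
    rw [div_le_iff₀ hc2]
    linarith [cosh_sub_one_le (x := X h) hc.1]
  -- right side
  have hR : Tendsto (fun c : ℝ => ∑' m : ℤ, P m * ((1 - Real.cos (c * (2 * π * m))) / c ^ 2))
      (𝓝[≠] 0) (𝓝 (∑' m : ℤ, P m * ((2 * π * m) ^ 2 / 2))) := by
    refine tendsto_tsum_of_dominated_convergence (hP2.mul_left (2 * π ^ 2))
      (fun m => (tendsto_cos (2 * π * m)).const_mul _) ?_
    filter_upwards [hmem] with c hc m
    have hc0 : c ≠ 0 := hc.2
    have hc2 : 0 < c ^ 2 := by positivity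
    have h1 : 0 ≤ 1 - Real.cos (c * (2 * π * m)) := by linarith [Real.cos_le_one (c * (2 * π * m))]
    have h2 : 1 - Real.cos (c * (2 * π * m)) ≤ (c * (2 * π * m)) ^ 2 / 2 := by
      linarith [Real.one_sub_sq_div_two_le_cos (x := c * (2 * π * m))]
    rw [norm_mul, Real.norm_eq_abs, Real.norm_of_nonneg (div_nonneg h1 hc2.le)]
    have h3 : (1 - Real.cos (c * (2 * π * m))) / c ^ 2 ≤ 2 * π ^ 2 * m ^ 2 := by
      rw [div_le_iff₀ hc2]
      nlinarith
    calc |P m| * ((1 - Real.cos (c * (2 * π * m))) / c ^ 2) ≤ |P m| * (2 * π ^ 2 * m ^ 2) :=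
          mul_le_mul_of_nonneg_left h3 (abs_nonneg _)
      _ = 2 * π ^ 2 * (m ^ 2 * |P m|) := by ring
  have hE := tendsto_exp_sq k
  have hE1 : Tendsto (fun c : ℝ => Real.exp (k * c ^ 2)) (𝓝[≠] 0) (𝓝 1) := by
    have : Tendsto (fun c : ℝ => Real.exp (k * c ^ 2)) (𝓝 0) (𝓝 (Real.exp (k * 0 ^ 2))) :=
      (by fun_prop : Continuous fun c : ℝ => Real.exp (k * c ^ 2)).tendsto 0
    simp only [ne_eq, OfNat.ofNat_ne_zero, not_false_eq_true, zero_pow, mul_zero,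
      Real.exp_zero] at this
    exact this.mono_left nhdsWithin_le_nhds
  have hT : Tendsto (fun c : ℝ => ∑' h, ω h * ((Real.cosh (c * X h) - 1) / c ^ 2)) (𝓝[≠] 0)
      (𝓝 (k * (∑' m, P m) - 1 * ∑' m : ℤ, P m * ((2 * π * m) ^ 2 / 2))) := by
    refine ((hE.mul_const (∑' m, P m)).sub (hE1.mul hR)).congr' ?_
    filter_upwards [hmem] with c hc
    have hc0 : c ≠ 0 := hc.2
    have hc2 : c ^ 2 ≠ 0 := by positivity
    have h1 : ∑' h, ω h * ((Real.cosh (c * X h) - 1) / c ^ 2) =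
        (∑' h, ω h * Real.cosh (c * X h) - ∑' h, ω h) / c ^ 2 := by
      rw [← (hsum0 c hc.1).tsum_sub hω1, ← tsum_div_const]
      exact tsum_congr fun h => by ring
    have h2 : ∑' m : ℤ, P m * ((1 - Real.cos (c * (2 * π * m))) / c ^ 2) =
        (∑' m, P m - ∑' m : ℤ, P m * Real.cos (c * (2 * π * m))) / c ^ 2 := by
      rw [← hPs.tsum_sub (hPc c), ← tsum_div_const]
      exact tsum_congr fun h => by ring
    rw [h1, h2, hid c, h0]
    field_simp
    ring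
  have h4 := tendsto_nhds_unique hL hT
  have h5 : ∑' h, ω h * (X h ^ 2 / 2) = (∑' h, ω h * X h ^ 2) / 2 := by
    rw [← tsum_div_const]
    exact tsum_congr fun h => by ring
  have h6 : ∑' m : ℤ, P m * ((2 * π * m) ^ 2 / 2) = 2 * π ^ 2 * ∑' m : ℤ, (m : ℝ) ^ 2 * P m := by
    rw [← tsum_mul_left]
    exact tsum_congr fun h => by ring
  rw [h5, h6] at h4
  linarith



/-! ### the coarse field -/

section coarse

variable {C : Type*} [Fintype C] [DecidableEq C]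

/-- Gaussian weight of the coarse field, variance `1/σ` -/
def gam (σ : ℝ) (G : C → ℝ) : ℝ := Real.exp (-(σ / 2) * ∑ u, G u ^ 2)

theorem gam_pos (σ : ℝ) (G : C → ℝ) : 0 < gam σ G := Real.exp_pos _

theorem gam_continuous (σ : ℝ) : Continuous (gam (C := C) σ) := by
  unfold gam
  fun_prop

theorem gam_neg (σ : ℝ) (G : C → ℝ) : gam σ (-G) = gam σ G := by
  unfold gam
  simp

theorem gam_integrable {σ : ℝ} (hσ : 0 < σ) : Integrable (gam (C := C) σ) := by
  have h := integrable_prod_gauss (V := C) (a := σ / 2) (by positivity)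
  exact h

theorem gam_mul_integrable {σ : ℝ} (hσ : 0 < σ) {F : (C → ℝ) → ℝ}
    (hF : Continuous F) {B : ℝ} (hB : ∀ g, |F g| ≤ B) : Integrable fun g => gam σ g * F g := by
  refine ((gam_integrable hσ).mul_const B).mono'
    ((gam_continuous σ).mul hF).aestronglyMeasurable (Eventually.of_forall fun g => ?_)
  rw [norm_mul, Real.norm_of_nonneg (gam_pos _ _).le]
  exact mul_le_mul_of_nonneg_left (hB g) (gam_pos _ _).le

theorem gam_mul_integrableC {σ : ℝ} (hσ : 0 < σ) {F : (C → ℝ) → ℂ}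
    (hF : Continuous F) {B : ℝ} (hB : ∀ g, ‖F g‖ ≤ B) :
    Integrable fun g => (gam σ g : ℂ) * F g := by
  refine ((gam_integrable hσ).mul_const B).mono'
    ((Complex.continuous_ofReal.comp (gam_continuous σ)).mul hF).aestronglyMeasurable
    (Eventually.of_forall fun g => ?_)
  rw [norm_mul, Complex.norm_real, Real.norm_of_nonneg (gam_pos _ _).le]
  exact mul_le_mul_of_nonneg_left (hB g) (gam_pos _ _).le

theorem Zm_continuous {w : (V → ℤ) → ℝ} {W ε : ℝ} (hw : WOK w W) (hε : 0 < ε) (m : ℤ) :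
    Continuous fun g => Zm w ε g m := by
  unfold Zm
  refine intervalIntegral.continuous_parametric_intervalIntegral_of_continuous' ?_ 0 1
  have h1 : Continuous fun p : (V → ℝ) × ℝ => ZZ w ε (fun x => p.1 x + p.2) :=
    (ZZ_continuous hw hε).comp (by fun_prop)
  exact (Complex.continuous_ofReal.comp h1).mul (by fun_prop)

theorem Ub_continuous {w : (V → ℤ) → ℝ} {W ε : ℝ} (hw : WOK w W) (hε : 0 < ε) :
    Continuous (Ub w ε) := by
  unfold Ub
  refine intervalIntegral.continuous_parametric_intervalIntegral_of_continuous' ?_ 0 1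
  exact (UU_continuous hw hε).comp (by fun_prop)

theorem xm_continuous {w : (V → ℤ) → ℝ} {W ε : ℝ} (hw : WOK w W) (hε : 0 < ε) (m : ℤ) :
    Continuous fun g => xm w ε g m := by
  unfold xm
  refine (intervalIntegral.continuous_parametric_intervalIntegral_of_continuous' ?_ 0 1).neg
  have h1 : Continuous fun p : (V → ℝ) × ℝ => UU w ε (fun x => p.1 x + p.2) :=
    (UU_continuous hw hε).comp (by fun_prop)
  exact (Complex.continuous_ofReal.comp h1).mul (by fun_prop)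

theorem ZZ_neg {w : (V → ℤ) → ℝ} {W : ℝ} (hw : WOK w W) (ε : ℝ) (f : V → ℝ) :
    ZZ w ε (-f) = ZZ w ε f := by
  unfold ZZ
  rw [← (Equiv.neg (V → ℤ)).tsum_eq]
  refine tsum_congr fun h => ?_
  simp only [Equiv.neg_apply]
  rw [hw.neg]
  congr 1
  unfold gs
  congr 2
  refine Finset.sum_congr rfl fun x _ => ?_
  simp only [Pi.neg_apply]
  push_cast
  ring

theorem Zm_zero_re {w : (V → ℤ) → ℝ} {ε : ℝ} (g : V → ℝ) :
    Zm w ε g 0 = ((∫ c in (0:ℝ)..1, ZZ w ε (fun x => g x + c) : ℝ) : ℂ) := by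
  unfold Zm
  rw [← intervalIntegral.integral_ofReal]
  simp

theorem Zm_zero_le {w : (V → ℤ) → ℝ} {W ε : ℝ} (hw : WOK w W) (hε : 0 < ε) {B : ℝ}
    (hB : ∀ f, ZZ w ε f ≤ B) (g : V → ℝ) : (Zm w ε g 0).re ≤ B := by
  rw [Zm_zero_re, Complex.ofReal_re]
  have h := intervalIntegral.norm_integral_le_of_norm_le_const (a := (0:ℝ)) (b := 1) (C := B)
    (f := fun c : ℝ => ZZ w ε (fun x => g x + c)) fun c _ => by
      rw [Real.norm_of_nonneg (ZZ_pos hw hε _).le]
      exact hB _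
  have h2 := (le_abs_self _).trans h
  simpa using h2

variable (A : (C → ℝ) → V → ℝ)

/-- Fourier coefficients of the coarse partition function -/
def pm (w : (V → ℤ) → ℝ) (ε σ : ℝ) (A : (C → ℝ) → V → ℝ) (m : ℤ) : ℂ :=
  ∫ G : C → ℝ, (gam σ G : ℂ) * Zm w ε (A G) m

/-- coarse partition function -/
def FF (w : (V → ℤ) → ℝ) (ε σ : ℝ) (A : (C → ℝ) → V → ℝ) (c : ℝ) : ℝ :=
  ∫ G : C → ℝ, gam σ G * ZZ w ε (fun x => A G x + c)

theorem pm_integrable {w : (V → ℤ) → ℝ} {W ε σ : ℝ} (hw : WOK w W) (hε : 0 < ε) (hσ : 0 < σ)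
    [Nonempty V] {A : (C → ℝ) → V → ℝ} (hA : Continuous A) (m : ℤ) :
    Integrable fun G : C → ℝ => (gam σ G : ℂ) * Zm w ε (A G) m := by
  obtain ⟨B, hB0, hB⟩ := ZZ_bdd hw hε
  refine gam_mul_integrableC hσ ((Zm_continuous hw hε m).comp hA)
    (B := Real.exp (-(2 * π ^ 2 / sV V ε) * (m : ℝ) ^ 2) * B) fun G => ?_
  exact (norm_Zm_le hw hε (A G) m).trans
    (mul_le_mul_of_nonneg_left (Zm_zero_le hw hε hB _) (Real.exp_pos _).le)

theorem norm_pm_le {w : (V → ℤ) → ℝ} {W ε σ : ℝ} (hw : WOK w W) (hε : 0 < ε) (hσ : 0 < σ)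
    [Nonempty V] {A : (C → ℝ) → V → ℝ} (hA : Continuous A) (m : ℤ) :
    ‖pm w ε σ A m‖ ≤ Real.exp (-(2 * π ^ 2 / sV V ε) * (m : ℝ) ^ 2) * (pm w ε σ A 0).re := by
  obtain ⟨B, hB0, hB⟩ := ZZ_bdd hw hε
  have hre : (pm w ε σ A 0).re = ∫ G : C → ℝ, gam σ G * (Zm w ε (A G) 0).re := by
    unfold pm
    have h1 : ∀ G : C → ℝ, (gam σ G : ℂ) * Zm w ε (A G) 0 =
        ((gam σ G * (Zm w ε (A G) 0).re : ℝ) : ℂ) := fun G => by
      rw [Zm_zero_re]
      push_cast
      simp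
    simp only [h1]
    rw [integral_complex_ofReal, Complex.ofReal_re]
  rw [hre, ← integral_const_mul]
  refine norm_integral_le_of_norm_le ?_ (Eventually.of_forall fun G => ?_)
  · have h2 : Integrable fun G : C → ℝ => gam σ G * (Zm w ε (A G) 0).re := by
      refine gam_mul_integrable hσ (Complex.continuous_re.comp
        ((Zm_continuous hw hε 0).comp hA)) (B := B) fun G => ?_
      have h3 := norm_Zm_le hw hε (A G) 0
      have h4 : 0 ≤ (Zm w ε (A G) 0).re := by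
        have h5 : Real.exp (-(2 * π ^ 2 / sV V ε) * ((0 : ℤ) : ℝ) ^ 2) = 1 := by simp
        rw [h5, one_mul] at h3
        exact (norm_nonneg _).trans h3
      rw [abs_of_nonneg h4]
      exact Zm_zero_le hw hε hB _
    exact h2.const_mul _
  · rw [norm_mul, Complex.norm_real, Real.norm_of_nonneg (gam_pos _ _).le]
    calc gam σ G * ‖Zm w ε (A G) m‖ ≤ gam σ G *
          (Real.exp (-(2 * π ^ 2 / sV V ε) * (m : ℝ) ^ 2) * (Zm w ε (A G) 0).re) :=
          mul_le_mul_of_nonneg_left (norm_Zm_le hw hε (A G) m) (gam_pos _ _).le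
      _ = _ := by ring

theorem summable_norm_pm {w : (V → ℤ) → ℝ} {W ε σ : ℝ} (hw : WOK w W) (hε : 0 < ε) (hσ : 0 < σ)
    [Nonempty V] {A : (C → ℝ) → V → ℝ} (hA : Continuous A) (k : ℕ) :
    Summable fun m : ℤ => |(m : ℝ)| ^ k * ‖pm w ε σ A m‖ := by
  have hs : 0 < sV V ε := sV_pos hε
  refine Summable.of_nonneg_of_le (fun m => mul_nonneg (pow_nonneg (abs_nonneg _) _)
    (norm_nonneg _)) (fun m => ?_)
    ((summable_int_pow_gauss (a := 2 * π ^ 2 / sV V ε) (by positivity) k).mul_right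
      (pm w ε σ A 0).re)
  calc |(m : ℝ)| ^ k * ‖pm w ε σ A m‖ ≤ |(m : ℝ)| ^ k *
        (Real.exp (-(2 * π ^ 2 / sV V ε) * (m : ℝ) ^ 2) * (pm w ε σ A 0).re) :=
        mul_le_mul_of_nonneg_left (norm_pm_le hw hε hσ hA m) (pow_nonneg (abs_nonneg _) _)
    _ = _ := by ring

theorem FF_hasSum {w : (V → ℤ) → ℝ} {W ε σ : ℝ} (hw : WOK w W) (hε : 0 < ε) (hσ : 0 < σ)
    [Nonempty V] {A : (C → ℝ) → V → ℝ} (hA : Continuous A) (c : ℝ) :
    HasSum (fun m : ℤ => pm w ε σ A m * Complex.exp (2 * π * Complex.I * m * c))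
      (FF w ε σ A c : ℂ) := by
  obtain ⟨B, hB0, hB⟩ := ZZ_bdd hw hε
  have hs : 0 < sV V ε := sV_pos hε
  have h1 : ∀ m : ℤ, Integrable fun G : C → ℝ =>
      (gam σ G : ℂ) * Zm w ε (A G) m * Complex.exp (2 * π * Complex.I * m * c) := fun m =>
    (pm_integrable hw hε hσ hA m).mul_const _
  have h2 : Summable fun m : ℤ => ∫ G : C → ℝ,
      ‖(gam σ G : ℂ) * Zm w ε (A G) m * Complex.exp (2 * π * Complex.I * m * c)‖ := by
    refine Summable.of_nonneg_of_le (fun m => integral_nonneg fun G => norm_nonneg _) (fun m => ?_)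
      ((summable_int_gauss (a := 2 * π ^ 2 / sV V ε) (by positivity)).mul_right
        (∫ G : C → ℝ, gam σ G * B))
    rw [← integral_const_mul]
    refine integral_mono (h1 m).norm (((gam_integrable hσ).mul_const B).const_mul _) fun G => ?_
    simp only
    rw [norm_mul, norm_cexp_mul, mul_one, norm_mul, Complex.norm_real,
      Real.norm_of_nonneg (gam_pos _ _).le]
    calc gam σ G * ‖Zm w ε (A G) m‖ ≤ gam σ G *
          (Real.exp (-(2 * π ^ 2 / sV V ε) * (m : ℝ) ^ 2) * B) :=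
          mul_le_mul_of_nonneg_left ((norm_Zm_le hw hε (A G) m).trans
            (mul_le_mul_of_nonneg_left (Zm_zero_le hw hε hB _) (Real.exp_pos _).le))
            (gam_pos _ _).le
      _ = _ := by ring
  have h3 := hasSum_integral_of_summable_integral_norm h1 h2
  have h4 : ∀ m : ℤ, ∫ G : C → ℝ, (gam σ G : ℂ) * Zm w ε (A G) m *
      Complex.exp (2 * π * Complex.I * m * c) =
      pm w ε σ A m * Complex.exp (2 * π * Complex.I * m * c) := fun m => by
    rw [integral_mul_const]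
    rfl
  simp only [h4] at h3
  have h5 : (FF w ε σ A c : ℂ) = ∫ G : C → ℝ, ∑' m : ℤ, (gam σ G : ℂ) * Zm w ε (A G) m *
      Complex.exp (2 * π * Complex.I * m * c) := by
    unfold FF
    rw [← integral_complex_ofReal]
    refine integral_congr_ae (Eventually.of_forall fun G => ?_)
    simp only
    rw [Complex.ofReal_mul, ← (hasSum_Zm hw hε (A G) c).tsum_eq, ← tsum_mul_left]
    exact tsum_congr fun m => by ring
  rw [h5]
  exact h3

theorem FF_even {w : (V → ℤ) → ℝ} {W ε σ : ℝ} (hw : WOK w W)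
    {A : (C → ℝ) → V → ℝ} (hAn : ∀ G, A (-G) = -A G) (c : ℝ) :
    FF w ε σ A (-c) = FF w ε σ A c := by
  unfold FF
  rw [← integral_neg_eq_self (μ := volume)]
  refine integral_congr_ae (Eventually.of_forall fun G => ?_)
  simp only
  rw [gam_neg, hAn, ← ZZ_neg hw]
  congr 2
  funext x
  simp only [Pi.neg_apply]
  ring

theorem FF_cos {w : (V → ℤ) → ℝ} {W ε σ : ℝ} (hw : WOK w W) (hε : 0 < ε) (hσ : 0 < σ)
    [Nonempty V] {A : (C → ℝ) → V → ℝ} (hA : Continuous A) (hAn : ∀ G, A (-G) = -A G) (c : ℝ) :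
    FF w ε σ A c = ∑' m : ℤ, (pm w ε σ A m).re * Real.cos (c * (2 * π * m)) := by
  have h1 := FF_hasSum hw hε hσ hA c
  have h2 := FF_hasSum hw hε hσ hA (-c)
  rw [FF_even hw hAn] at h2
  have h3 := (h1.add h2).mul_left (1 / 2 : ℂ)
  have h4 : HasSum (fun m : ℤ => pm w ε σ A m * (Real.cos (c * (2 * π * m)) : ℂ))
      (FF w ε σ A c : ℂ) := by
    have e0 : (fun m : ℤ => pm w ε σ A m * (Real.cos (c * (2 * π * m)) : ℂ)) =
        fun m : ℤ => 1 / 2 * (pm w ε σ A m * Complex.exp (2 * π * Complex.I * m * c) +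
          pm w ε σ A m * Complex.exp (2 * π * Complex.I * m * ((-c : ℝ) : ℂ))) := by
      funext m
      rw [Complex.ofReal_cos, Complex.cos]
      push_cast
      have e1 : (c * (2 * π * m) * Complex.I : ℂ) = 2 * π * Complex.I * m * c := by ring
      have e2 : (-(c * (2 * π * m)) * Complex.I : ℂ) = 2 * π * Complex.I * m * (-c) := by ring
      rw [e1, e2]
      ring
    have e3 : (FF w ε σ A c : ℂ) = 1 / 2 * ((FF w ε σ A c : ℂ) + (FF w ε σ A c : ℂ)) := by ring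
    rw [e0, e3]
    exact h3
  have h5 := (Complex.hasSum_re h4).tsum_eq
  rw [Complex.ofReal_re] at h5
  rw [← h5]
  refine tsum_congr fun m => ?_
  rw [Complex.re_mul_ofReal]

end coarse


/-! ### the reference measure -/

section numbers

variable {C : Type*} [Fintype C] [DecidableEq C]

/-- normalisation of `ν̄` -/
def nb (w : (V → ℤ) → ℝ) (ε σ : ℝ) (A : (C → ℝ) → V → ℝ) : ℝ :=
  ∫ G : C → ℝ, gam σ G * Real.exp (-Ub w ε (A G))

/-- unnormalised `ν̄`-mean of the charge `m` -/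
def xE (w : (V → ℤ) → ℝ) (ε σ : ℝ) (A : (C → ℝ) → V → ℝ) (m : ℤ) : ℂ :=
  ∫ G : C → ℝ, (gam σ G : ℂ) * ((Real.exp (-Ub w ε (A G)) : ℝ) * xm w ε (A G) m)

theorem exp_Ub_le {w : (V → ℤ) → ℝ} {W ε : ℝ} (hw : WOK w W) (hε : 0 < ε) {w0 B : ℝ}
    (hosc : ∀ (g : V → ℝ) (c c' : ℝ),
      |UU w ε (fun x => g x + c) - UU w ε (fun x => g x + c')| ≤ w0)
    (hB : ∀ f, ZZ w ε f ≤ B) (g : V → ℝ) :
    Real.exp (-Ub w ε g) ≤ Real.exp w0 * (B / ZZ w ε 0) := by
  have h1 := abs_le.1 (dev_le hw hε (hosc g) 0)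
  simp only [add_zero] at h1
  have h2 : Real.exp (-Ub w ε g) ≤ Real.exp w0 * Real.exp (-UU w ε g) := by
    rw [← Real.exp_add]
    exact Real.exp_le_exp.2 (by linarith [h1.2])
  refine h2.trans (mul_le_mul_of_nonneg_left ?_ (Real.exp_pos _).le)
  have h0 := ZZ_pos hw hε 0
  have h3 := ZZ_eq_exp hw hε g
  rw [le_div_iff₀ h0]
  calc Real.exp (-UU w ε g) * ZZ w ε 0 = ZZ w ε g := by rw [h3]; ring
    _ ≤ B := hB g

theorem nb_integrable {w : (V → ℤ) → ℝ} {W ε σ : ℝ} (hw : WOK w W) (hε : 0 < ε) (hσ : 0 < σ)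
    {A : (C → ℝ) → V → ℝ} (hA : Continuous A) {w0 : ℝ}
    (hosc : ∀ (g : V → ℝ) (c c' : ℝ),
      |UU w ε (fun x => g x + c) - UU w ε (fun x => g x + c')| ≤ w0) :
    Integrable fun G : C → ℝ => gam σ G * Real.exp (-Ub w ε (A G)) := by
  obtain ⟨B, hB0, hB⟩ := ZZ_bdd hw hε
  refine gam_mul_integrable hσ (((Ub_continuous hw hε).comp hA).neg.rexp)
    (B := Real.exp w0 * (B / ZZ w ε 0)) fun G => ?_
  rw [abs_of_pos (Real.exp_pos _)]
  exact exp_Ub_le hw hε hosc hB _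

theorem nb_pos {w : (V → ℤ) → ℝ} {W ε σ : ℝ} (hw : WOK w W) (hε : 0 < ε) (hσ : 0 < σ)
    {A : (C → ℝ) → V → ℝ} (hA : Continuous A) {w0 : ℝ}
    (hosc : ∀ (g : V → ℝ) (c c' : ℝ),
      |UU w ε (fun x => g x + c) - UU w ε (fun x => g x + c')| ≤ w0) :
    0 < nb w ε σ A := by
  unfold nb
  have h := nb_integrable hw hε hσ hA hosc
  have e : ∀ G : C → ℝ, gam σ G * Real.exp (-Ub w ε (A G)) =
      Real.exp (-(σ / 2) * ∑ u, G u ^ 2 + -Ub w ε (A G)) := fun G => by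
    unfold gam
    rw [Real.exp_add]
  simp only [e] at h ⊢
  exact integral_exp_pos h

theorem xE_integrable {w : (V → ℤ) → ℝ} {W ε σ : ℝ} (hw : WOK w W) (hε : 0 < ε) (hσ : 0 < σ)
    [Nonempty V] {A : (C → ℝ) → V → ℝ} (hA : Continuous A) {w0 : ℝ}
    (hosc : ∀ (g : V → ℝ) (c c' : ℝ),
      |UU w ε (fun x => g x + c) - UU w ε (fun x => g x + c')| ≤ w0) (h1 : w0 ≤ 1)
    {m : ℤ} (hm : m ≠ 0) :
    Integrable fun G : C → ℝ => (gam σ G : ℂ) *
      ((Real.exp (-Ub w ε (A G)) : ℝ) * xm w ε (A G) m) := by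
  obtain ⟨B, hB0, hB⟩ := ZZ_bdd hw hε
  have h0 := ZZ_pos hw hε (0 : V → ℝ)
  set E := Real.exp w0 * (B / ZZ w ε 0) with hE
  refine gam_mul_integrableC hσ ((Complex.continuous_ofReal.comp
    (((Ub_continuous hw hε).comp hA).neg.rexp)).mul ((xm_continuous hw hε m).comp hA))
    (B := B / ZZ w ε 0 + w0 ^ 2 * E) fun G => ?_
  have h2 := Zm_sub_xm hw hε (hosc (A G)) h1 hm
  have h3 := norm_Zm_le hw hε (A G) m
  have h4 : Real.exp (-(2 * π ^ 2 / sV V ε) * (m : ℝ) ^ 2) ≤ 1 := by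
    apply Real.exp_le_one_iff.2
    have := sV_pos (V := V) hε
    have : 0 ≤ 2 * π ^ 2 / sV V ε := by positivity
    nlinarith [sq_nonneg (m : ℝ)]
  have h5 : 0 ≤ (Zm w ε (A G) 0).re := by
    have h3' := norm_Zm_le hw hε (A G) 0
    simp at h3'
    exact (norm_nonneg _).trans h3'
  have h6 : ‖Zm w ε (A G) m‖ ≤ B :=
    h3.trans ((mul_le_of_le_one_left h5 h4).trans (Zm_zero_le hw hε hB _))
  have h7 : ‖((ZZ w ε 0 * Real.exp (-Ub w ε (A G)) : ℝ) : ℂ) * xm w ε (A G) m‖ ≤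
      B + w0 ^ 2 * (ZZ w ε 0 * Real.exp (-Ub w ε (A G))) := by
    have := norm_sub_norm_le (((ZZ w ε 0 * Real.exp (-Ub w ε (A G)) : ℝ) : ℂ) * xm w ε (A G) m)
      (Zm w ε (A G) m)
    rw [norm_sub_rev] at this
    linarith
  rw [Complex.ofReal_mul, mul_assoc, norm_mul, Complex.norm_real, Real.norm_of_nonneg h0.le] at h7
  have h8 := exp_Ub_le hw hε hosc hB (A G)
  have h9 : ‖((Real.exp (-Ub w ε (A G)) : ℝ) : ℂ) * xm w ε (A G) m‖ ≤
      (B + w0 ^ 2 * (ZZ w ε 0 * Real.exp (-Ub w ε (A G)))) / ZZ w ε 0 := by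
    rw [le_div_iff₀ h0, mul_comm]
    exact h7
  refine h9.trans ?_
  rw [add_div]
  have h10 : w0 ^ 2 * (ZZ w ε 0 * Real.exp (-Ub w ε (A G))) / ZZ w ε 0 =
      w0 ^ 2 * Real.exp (-Ub w ε (A G)) := by
    field_simp
  rw [h10]
  have := mul_le_mul_of_nonneg_left h8 (sq_nonneg w0)
  linarith

theorem pm_sub_xE {w : (V → ℤ) → ℝ} {W ε σ : ℝ} (hw : WOK w W) (hε : 0 < ε) (hσ : 0 < σ)
    [Nonempty V] {A : (C → ℝ) → V → ℝ} (hA : Continuous A) {w0 : ℝ}
    (hosc : ∀ (g : V → ℝ) (c c' : ℝ),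
      |UU w ε (fun x => g x + c) - UU w ε (fun x => g x + c')| ≤ w0) (h1 : w0 ≤ 1)
    {m : ℤ} (hm : m ≠ 0) :
    ‖pm w ε σ A m - ZZ w ε 0 * xE w ε σ A m‖ ≤ w0 ^ 2 * (ZZ w ε 0 * nb w ε σ A) := by
  have i1 := pm_integrable hw hε hσ hA m
  have i2 := xE_integrable hw hε hσ hA hosc h1 hm
  have i3 := nb_integrable hw hε hσ hA hosc
  unfold pm xE nb
  rw [← integral_const_mul, ← integral_sub i1 (i2.const_mul _), ← integral_const_mul,
    ← integral_const_mul]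
  refine norm_integral_le_of_norm_le ((i3.const_mul _).const_mul _)
    (Eventually.of_forall fun G => ?_)
  have h2 := Zm_sub_xm hw hε (hosc (A G)) h1 hm
  have h3 : (gam σ G : ℂ) * Zm w ε (A G) m - ZZ w ε 0 * ((gam σ G : ℂ) *
      ((Real.exp (-Ub w ε (A G)) : ℝ) * xm w ε (A G) m)) = (gam σ G : ℂ) *
      (Zm w ε (A G) m - ((ZZ w ε 0 * Real.exp (-Ub w ε (A G)) : ℝ) : ℂ) * xm w ε (A G) m) := by
    push_cast
    ring
  rw [h3, norm_mul, Complex.norm_real, Real.norm_of_nonneg (gam_pos _ _).le]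
  calc gam σ G * _ ≤ gam σ G * (w0 ^ 2 * (ZZ w ε 0 * Real.exp (-Ub w ε (A G)))) :=
        mul_le_mul_of_nonneg_left h2 (gam_pos _ _).le
    _ = _ := by ring

theorem pm_zero_ge {w : (V → ℤ) → ℝ} {W ε σ : ℝ} (hw : WOK w W) (hε : 0 < ε) (hσ : 0 < σ)
    [Nonempty V] {A : (C → ℝ) → V → ℝ} (hA : Continuous A) {w0 : ℝ}
    (hosc : ∀ (g : V → ℝ) (c c' : ℝ),
      |UU w ε (fun x => g x + c) - UU w ε (fun x => g x + c')| ≤ w0) (h1 : w0 ≤ 1) :
    (1 - w0 ^ 2) * (ZZ w ε 0 * nb w ε σ A) ≤ (pm w ε σ A 0).re := by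
  have i1 := pm_integrable hw hε hσ hA 0
  have i3 := nb_integrable hw hε hσ hA hosc
  have h4 : ‖pm w ε σ A 0 - ((ZZ w ε 0 * nb w ε σ A : ℝ) : ℂ)‖ ≤
      w0 ^ 2 * (ZZ w ε 0 * nb w ε σ A) := by
    unfold pm nb
    have i4 : Integrable fun G : C → ℝ =>
        ((ZZ w ε 0 * (gam σ G * Real.exp (-Ub w ε (A G))) : ℝ) : ℂ) := (i3.const_mul _).ofReal
    rw [← integral_const_mul (ZZ w ε 0), ← integral_complex_ofReal,
      ← integral_sub i1 i4, ← integral_const_mul]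
    refine norm_integral_le_of_norm_le ((i3.const_mul _).const_mul _)
      (Eventually.of_forall fun G => ?_)
    have h2 := Zm_zero_sub hw hε (hosc (A G)) h1
    have h3 : (gam σ G : ℂ) * Zm w ε (A G) 0 - ((ZZ w ε 0 * (gam σ G *
        Real.exp (-Ub w ε (A G))) : ℝ) : ℂ) = (gam σ G : ℂ) *
        (Zm w ε (A G) 0 - ((ZZ w ε 0 * Real.exp (-Ub w ε (A G)) : ℝ) : ℂ)) := by
      push_cast
      ring
    rw [h3, norm_mul, Complex.norm_real, Real.norm_of_nonneg (gam_pos _ _).le]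
    calc gam σ G * _ ≤ gam σ G * (w0 ^ 2 * (ZZ w ε 0 * Real.exp (-Ub w ε (A G)))) :=
          mul_le_mul_of_nonneg_left h2 (gam_pos _ _).le
      _ = _ := by ring
  have h5 := (Complex.abs_re_le_norm _).trans h4
  rw [Complex.sub_re, Complex.ofReal_re] at h5
  have h6 := abs_le.1 h5
  linarith [h6.1]

/-- absolute constant -/
def K0 : ℝ := ∑' m : ℤ, |(m : ℝ)| ^ 2 * Real.exp (-|(m : ℝ)|)

theorem summable_K0 : Summable fun m : ℤ => |(m : ℝ)| ^ 2 * Real.exp (-|(m : ℝ)|) := by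
  have h : Summable fun n : ℕ => (n : ℝ) ^ 2 * Real.exp (-(n : ℝ)) := by
    have := Real.summable_pow_mul_exp_neg_nat_mul 2 (r := 1) one_pos
    simpa using this
  refine Summable.of_nat_of_neg (h.congr fun n => ?_) (h.congr fun n => ?_)
  · simp
  · simp

theorem K0_nonneg : 0 ≤ K0 := tsum_nonneg fun m => by positivity

theorem K0_le : K0 ≤ 48 := by
  have h1 : ∀ m : ℤ, |(m : ℝ)| ^ 2 * Real.exp (-|(m : ℝ)|) ≤ 8 * Real.exp (-(|(m : ℝ)| / 2)) := by
    intro m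
    set x := |(m : ℝ)|
    have hx : 0 ≤ x := abs_nonneg _
    have h2 := Real.quadratic_le_exp_of_nonneg (x := x / 2) (by positivity)
    have h3 : x ^ 2 ≤ 8 * Real.exp (x / 2) := by nlinarith
    calc x ^ 2 * Real.exp (-x) ≤ 8 * Real.exp (x / 2) * Real.exp (-x) :=
          mul_le_mul_of_nonneg_right h3 (Real.exp_pos _).le
      _ = 8 * Real.exp (-(x / 2)) := by
          rw [mul_assoc, ← Real.exp_add]
          congr 2
          ring
  have hq0 : 0 ≤ Real.exp (-(1 / 2 : ℝ)) := (Real.exp_pos _).le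
  have hq1 : Real.exp (-(1 / 2 : ℝ)) ≤ 2 / 3 := by
    rw [Real.exp_neg]
    have h := Real.quadratic_le_exp_of_nonneg (x := 1 / 2) (by norm_num)
    rw [inv_le_comm₀ (Real.exp_pos _) (by norm_num)]
    linarith
  have hq2 : Real.exp (-(1 / 2 : ℝ)) < 1 := by linarith
  have hg := hasSum_geometric_of_lt_one hq0 hq2
  have e : ∀ n : ℕ, Real.exp (-((n : ℝ) / 2)) = Real.exp (-(1 / 2 : ℝ)) ^ n := by
    intro n
    rw [← Real.exp_nat_mul]
    congr 1
    ring
  have hg' : HasSum (fun n : ℕ => Real.exp (-((n : ℝ) / 2))) (1 - Real.exp (-(1 / 2 : ℝ)))⁻¹ := by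
    simpa only [e] using hg
  have hZ : HasSum (fun m : ℤ => Real.exp (-(|(m : ℝ)| / 2)))
      ((1 - Real.exp (-(1 / 2 : ℝ)))⁻¹ + (1 - Real.exp (-(1 / 2 : ℝ)))⁻¹ - 1) := by
    have a1 : HasSum (fun n : ℕ => Real.exp (-(|(((n : ℕ) : ℤ) : ℝ)| / 2)))
        (1 - Real.exp (-(1 / 2 : ℝ)))⁻¹ := by simpa using hg'
    have a2 : HasSum (fun n : ℕ => Real.exp (-(|((-((n : ℕ) : ℤ) : ℤ) : ℝ)| / 2)))
        (1 - Real.exp (-(1 / 2 : ℝ)))⁻¹ := by simpa using hg'
    have h := HasSum.of_nat_of_neg (f := fun m : ℤ => Real.exp (-(|(m : ℝ)| / 2))) a1 a2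
    simpa using h
  have h4 : K0 ≤ ∑' m : ℤ, 8 * Real.exp (-(|(m : ℝ)| / 2)) :=
    summable_K0.tsum_le_tsum h1 (hZ.summable.mul_left 8)
  rw [tsum_mul_left, hZ.tsum_eq] at h4
  have h5 : (1 - Real.exp (-(1 / 2 : ℝ)))⁻¹ ≤ 3 := by
    rw [inv_le_comm₀ (by linarith) (by norm_num)]
    linarith
  linarith

/-- the right-hand side of the charge bound -/
def RR (s w0 : ℝ) (m1 : ℕ) (r : ℤ → ℝ) : ℝ :=
  ∑ m ∈ Finset.Icc (-(m1 : ℤ)) m1, (m : ℝ) ^ 2 * (4 / 3 * (r m + w0 ^ 2)) +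
    K0 * Real.exp (-(π ^ 2 * (m1 : ℝ) ^ 2 / s))

theorem sum_sq_le {P : ℤ → ℝ} {D s w0 : ℝ} {m1 : ℕ} {r : ℤ → ℝ} (hD : 0 ≤ D) (hs : 0 < s)
    (hsm : s ≤ π ^ 2 * m1) (hP2 : Summable fun m : ℤ => (m : ℝ) ^ 2 * |P m|)
    (h1 : ∀ m : ℤ, m ≠ 0 → |m| ≤ m1 → |P m| ≤ D * (4 / 3 * (r m + w0 ^ 2)))
    (h2 : ∀ m : ℤ, |P m| ≤ Real.exp (-(2 * π ^ 2 / s) * (m : ℝ) ^ 2) * D) :
    ∑' m : ℤ, (m : ℝ) ^ 2 * |P m| ≤ D * RR s w0 m1 r := by
  have hpi := Real.pi_pos
  rw [← hP2.sum_add_tsum_compl (s := Finset.Icc (-(m1 : ℤ)) m1)]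
  unfold RR
  rw [mul_add, Finset.mul_sum]
  refine add_le_add (Finset.sum_le_sum fun m hm => ?_) ?_
  · by_cases h0 : m = 0
    · subst h0; simp
    · rw [Finset.mem_Icc] at hm
      have h3 := h1 m h0 (abs_le.2 hm)
      calc (m : ℝ) ^ 2 * |P m| ≤ (m : ℝ) ^ 2 * (D * (4 / 3 * (r m + w0 ^ 2))) :=
            mul_le_mul_of_nonneg_left h3 (sq_nonneg _)
        _ = _ := by ring
  · have h4 : ∀ m : ((Finset.Icc (-(m1 : ℤ)) m1 : Finset ℤ) : Set ℤ)ᶜ.Elem,
        ((m : ℤ) : ℝ) ^ 2 * |P m| ≤ D * Real.exp (-(π ^ 2 * (m1 : ℝ) ^ 2 / s)) *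
          (|((m : ℤ) : ℝ)| ^ 2 * Real.exp (-|((m : ℤ) : ℝ)|)) := by
      intro m
      obtain ⟨m, hm⟩ := m
      simp only [Set.mem_compl_iff, Finset.mem_coe, Finset.mem_Icc, ← abs_le, not_le] at hm
      have hm' : (m1 : ℝ) ≤ |(m : ℝ)| := by
        have : ((m1 : ℤ) : ℝ) < ((|m| : ℤ) : ℝ) := by exact_mod_cast hm
        rw [Int.cast_abs] at this
        push_cast at this
        exact this.le
      have h5 := h2 m
      have h6 : Real.exp (-(2 * π ^ 2 / s) * (m : ℝ) ^ 2) ≤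
          Real.exp (-(π ^ 2 * (m1 : ℝ) ^ 2 / s)) * Real.exp (-|(m : ℝ)|) := by
        rw [← Real.exp_add]
        apply Real.exp_le_exp.2
        have h7 : (m : ℝ) ^ 2 = |(m : ℝ)| ^ 2 := (sq_abs _).symm
        rw [h7]
        have ha : 0 ≤ |(m : ℝ)| := abs_nonneg _
        have hb : (0:ℝ) ≤ m1 := Nat.cast_nonneg _
        have h8 : π ^ 2 * (m1 : ℝ) ^ 2 / s ≤ π ^ 2 * |(m : ℝ)| ^ 2 / s := by
          gcongr
        have h9 : |(m : ℝ)| ≤ π ^ 2 * |(m : ℝ)| ^ 2 / s := by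
          rw [le_div_iff₀ hs]
          calc |(m : ℝ)| * s ≤ |(m : ℝ)| * (π ^ 2 * m1) := by gcongr
            _ ≤ |(m : ℝ)| * (π ^ 2 * |(m : ℝ)|) := by gcongr
            _ = _ := by ring
        have h10 : -(2 * π ^ 2 / s) * |(m : ℝ)| ^ 2 =
            -(π ^ 2 * |(m : ℝ)| ^ 2 / s) - (π ^ 2 * |(m : ℝ)| ^ 2 / s) := by ring
        rw [h10]
        linarith
      simp only
      calc (m : ℝ) ^ 2 * |P m| ≤ |(m : ℝ)| ^ 2 *
            ((Real.exp (-(π ^ 2 * (m1 : ℝ) ^ 2 / s)) * Real.exp (-|(m : ℝ)|)) * D) := by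
            rw [sq_abs]
            exact mul_le_mul_of_nonneg_left (h5.trans (mul_le_mul_of_nonneg_right h6 hD))
              (sq_nonneg _)
        _ = _ := by ring
    have h5 : Summable fun m : ((Finset.Icc (-(m1 : ℤ)) m1 : Finset ℤ) : Set ℤ)ᶜ.Elem =>
        D * Real.exp (-(π ^ 2 * (m1 : ℝ) ^ 2 / s)) *
          (|((m : ℤ) : ℝ)| ^ 2 * Real.exp (-|((m : ℤ) : ℝ)|)) :=
      (summable_K0.subtype _).mul_left _
    refine ((hP2.subtype _).tsum_le_tsum h4 h5).trans ?_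
    rw [tsum_mul_left]
    have h6 : ∑' m : ((Finset.Icc (-(m1 : ℤ)) m1 : Finset ℤ) : Set ℤ)ᶜ.Elem,
        (|((m : ℤ) : ℝ)| ^ 2 * Real.exp (-|((m : ℤ) : ℝ)|)) ≤ K0 := by
      unfold K0
      exact summable_K0.tsum_subtype_le _ _ (fun m => by positivity)
    calc _ ≤ D * Real.exp (-(π ^ 2 * (m1 : ℝ) ^ 2 / s)) * K0 :=
          mul_le_mul_of_nonneg_left h6 (by positivity)
      _ = _ := by ring

/-- **(C6)** the charge bound: `κ' |V| ≤ 8π² RR` in terms of the `ν̄`-means of the charges -/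
theorem charge_bound {w : (V → ℤ) → ℝ} {W ε σ : ℝ} (hw : WOK w W) (hε : 0 < ε) (hσ : 0 < σ)
    [Nonempty V] {A : (C → ℝ) → V → ℝ} (hA : Continuous A) (hAn : ∀ G, A (-G) = -A G) {w0 : ℝ}
    (hosc : ∀ (g : V → ℝ) (c c' : ℝ),
      |UU w ε (fun x => g x + c) - UU w ε (fun x => g x + c')| ≤ w0) (h00 : 0 ≤ w0)
    (h1 : w0 ≤ 1 / 2)
    {ι : Type*} {ω X : ι → ℝ} (hω : ∀ h, 0 ≤ ω h)
    (hsum : ∀ c : ℝ, Summable fun h => ω h * Real.exp (c * X h)) (k : ℝ)
    (hid : ∀ c : ℝ, FF w ε σ A c = Real.exp (-(k / 2) * c ^ 2) * ∑' h, ω h * Real.exp (c * X h))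
    (m1 : ℕ) (hm1 : sV V ε ≤ π ^ 2 * m1) (r : ℤ → ℝ)
    (hr : ∀ m : ℤ, m ≠ 0 → |m| ≤ m1 → ‖xE w ε σ A m‖ ≤ r m * nb w ε σ A)
    (hR : RR (sV V ε) w0 m1 r ≤ 1 / 2) :
    k * ∑' h, ω h - ∑' h, ω h * X h ^ 2 ≤ 8 * π ^ 2 * RR (sV V ε) w0 m1 r * ∑' h, ω h := by
  have hpi := Real.pi_pos
  have hs : 0 < sV V ε := sV_pos hε
  set P : ℤ → ℝ := fun m => (pm w ε σ A m).re with hPdef
  set D : ℝ := (pm w ε σ A 0).re with hDdef
  have hnb := nb_pos hw hε hσ hA hosc
  have hZ0 := ZZ_pos hw hε (0 : V → ℝ)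
  have hD1 := pm_zero_ge hw hε hσ hA hosc (h1.trans (by norm_num))
  have hw2 : w0 ^ 2 ≤ 1 / 4 := by nlinarith
  have hZn : 0 < ZZ w ε 0 * nb w ε σ A := mul_pos hZ0 hnb
  have hD2 : ZZ w ε 0 * nb w ε σ A ≤ 4 / 3 * D := by nlinarith
  have hD : 0 < D := by nlinarith
  have hPn : ∀ m, |P m| ≤ ‖pm w ε σ A m‖ := fun m => Complex.abs_re_le_norm _
  have hPs : Summable fun m : ℤ => |P m| := by
    refine Summable.of_nonneg_of_le (fun m => abs_nonneg _) hPn ?_
    simpa using summable_norm_pm hw hε hσ hA 0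
  have hP2 : Summable fun m : ℤ => (m : ℝ) ^ 2 * |P m| := by
    refine Summable.of_nonneg_of_le (fun m => by positivity) (fun m => ?_)
      (summable_norm_pm hw hε hσ hA 2)
    rw [sq_abs]
    exact mul_le_mul_of_nonneg_left (hPn m) (sq_nonneg _)
  have hb1 : ∀ m : ℤ, m ≠ 0 → |m| ≤ m1 → |P m| ≤ D * (4 / 3 * (r m + w0 ^ 2)) := by
    intro m hm hm'
    have h2 := pm_sub_xE hw hε hσ hA hosc (h1.trans (by norm_num)) hm
    have h3 := hr m hm hm'
    have h4 : ‖pm w ε σ A m‖ ≤ ZZ w ε 0 * ‖xE w ε σ A m‖ +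
        w0 ^ 2 * (ZZ w ε 0 * nb w ε σ A) := by
      have h5 := norm_le_norm_add_norm_sub' (pm w ε σ A m) (ZZ w ε 0 * xE w ε σ A m)
      rw [norm_mul, Complex.norm_real, Real.norm_of_nonneg hZ0.le] at h5
      rw [norm_sub_rev] at h2
      rw [norm_sub_rev] at h5
      linarith
    have h6 : ZZ w ε 0 * ‖xE w ε σ A m‖ ≤ ZZ w ε 0 * (r m * nb w ε σ A) :=
      mul_le_mul_of_nonneg_left h3 hZ0.le
    have h7 : 0 ≤ r m := by
      have := (norm_nonneg _).trans h3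
      by_contra hneg
      rw [not_le] at hneg
      nlinarith
    calc |P m| ≤ ‖pm w ε σ A m‖ := hPn m
      _ ≤ (r m + w0 ^ 2) * (ZZ w ε 0 * nb w ε σ A) := by linarith
      _ ≤ (r m + w0 ^ 2) * (4 / 3 * D) := mul_le_mul_of_nonneg_left hD2 (by positivity)
      _ = _ := by ring
  have hb2 : ∀ m : ℤ, |P m| ≤ Real.exp (-(2 * π ^ 2 / sV V ε) * (m : ℝ) ^ 2) * D := fun m =>
    (hPn m).trans (norm_pm_le hw hε hσ hA m)
  have hS := sum_sq_le hD.le hs hm1 hP2 hb1 hb2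
  -- the identity
  have hcosh : ∀ c : ℝ, ∑' h, ω h * Real.cosh (c * X h) =
      Real.exp (k / 2 * c ^ 2) * FF w ε σ A c := by
    intro c
    have h2 := hid c
    have h3 := hid (-c)
    rw [FF_even hw hAn] at h3
    have h4 : ∑' h, ω h * Real.cosh (c * X h) =
        (∑' h, ω h * Real.exp (c * X h) + ∑' h, ω h * Real.exp (-c * X h)) / 2 := by
      rw [← (hsum c).tsum_add (hsum (-c)), ← tsum_div_const]
      refine tsum_congr fun h => ?_
      rw [Real.cosh_eq]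
      ring_nf
    have h5 : ∑' h, ω h * Real.exp (c * X h) = Real.exp (k / 2 * c ^ 2) * FF w ε σ A c := by
      rw [h2, ← mul_assoc, ← Real.exp_add]
      ring_nf
      simp
    have h6 : ∑' h, ω h * Real.exp (-c * X h) = Real.exp (k / 2 * c ^ 2) * FF w ε σ A c := by
      rw [h3, ← mul_assoc, ← Real.exp_add]
      ring_nf
      simp
    rw [h4, h5, h6]
    ring
  have hso := second_order (P := P) hω ?_ ?_ hPs hP2 (k / 2) fun c => by
    rw [hcosh c, FF_cos hw hε hσ hA hAn]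
  rotate_left
  · refine Summable.of_nonneg_of_le (fun h => mul_nonneg (hω h) (by positivity)) (fun h => ?_)
      (((hsum 2).add (hsum (-2))).mul_left 2)
    have h2 : X h ^ 2 ≤ 2 * Real.exp |X h| := by
      have := Real.quadratic_le_exp_of_nonneg (abs_nonneg (X h))
      rw [← sq_abs]
      nlinarith [abs_nonneg (X h)]
    have h3 : Real.exp |X h| * Real.exp |X h| ≤ Real.exp (2 * X h) + Real.exp (-2 * X h) := by
      rw [← Real.exp_add]
      rcases le_total 0 (X h) with h4 | h4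
      · rw [abs_of_nonneg h4, show X h + X h = 2 * X h by ring]
        linarith [Real.exp_pos (-2 * X h)]
      · rw [abs_of_nonpos h4, show -X h + -X h = -2 * X h by ring]
        linarith [Real.exp_pos (2 * X h)]
    calc ω h * (X h ^ 2 * Real.exp |X h|) ≤ ω h * (2 * Real.exp |X h| * Real.exp |X h|) := by
          refine mul_le_mul_of_nonneg_left ?_ (hω h)
          exact mul_le_mul_of_nonneg_right h2 (Real.exp_pos _).le
      _ ≤ ω h * (2 * (Real.exp (2 * X h) + Real.exp (-2 * X h))) := by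
          refine mul_le_mul_of_nonneg_left ?_ (hω h)
          linarith
      _ = _ := by ring
  · intro c _
    refine (((hsum c).add (hsum (-c))).mul_left (1 / 2)).congr fun h => ?_
    rw [Real.cosh_eq]
    ring_nf
  obtain ⟨hs1, hs2⟩ := hso
  rw [hs1, hs2]
  have hPsum : D / 2 ≤ ∑' m, P m := by
    have h2 : ∑' m, |P m - if m = 0 then D else 0| ≤ D * RR (sV V ε) w0 m1 r := by
      refine le_trans ?_ hS
      refine Summable.tsum_le_tsum (fun m => ?_) ?_ hP2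
      · by_cases h0 : m = 0
        · subst h0; simp [hPdef, hDdef]
        · simp only [h0, if_false, sub_zero]
          have h3 : (1:ℝ) ≤ (m : ℝ) ^ 2 := by
            have : (1:ℤ) ≤ m ^ 2 := by
              have := sq_pos_of_ne_zero h0 |>.le
              have h4 : 0 < m ^ 2 := by positivity
              omega
            exact_mod_cast this
          nlinarith [abs_nonneg (P m)]
      · refine Summable.of_nonneg_of_le (fun m => abs_nonneg _) (fun m => ?_) hPs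
        by_cases h0 : m = 0
        · subst h0; simp [hPdef, hDdef]
        · simp [h0]
    have h3 : ∑' m, P m = D + ∑' m, (P m - if m = 0 then D else 0) := by
      have h4 : HasSum (fun m : ℤ => if m = 0 then D else 0) D := hasSum_ite_eq 0 D
      rw [hPs.of_abs.tsum_sub h4.summable, h4.tsum_eq]
      ring
    have h5 : |∑' m, (P m - if m = 0 then D else 0)| ≤
        ∑' m, |P m - if m = 0 then D else 0| := by
      have := norm_tsum_le_tsum_norm (f := fun m : ℤ => P m - if m = 0 then D else 0) (by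
        refine Summable.of_nonneg_of_le (fun m => norm_nonneg _) (fun m => ?_) hPs
        by_cases h0 : m = 0
        · subst h0; simp [hPdef, hDdef]
        · simp [h0])
      simpa [Real.norm_eq_abs] using this
    have h6 := abs_le.1 (h5.trans h2)
    rw [h3]
    nlinarith [h6.1]
  have habs : |∑' m : ℤ, (m : ℝ) ^ 2 * P m| ≤ D * RR (sV V ε) w0 m1 r := by
    refine le_trans ?_ hS
    have := norm_tsum_le_tsum_norm (f := fun m : ℤ => (m : ℝ) ^ 2 * P m) (by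
      refine hP2.congr fun m => ?_
      rw [norm_mul, Real.norm_of_nonneg (sq_nonneg _), Real.norm_eq_abs])
    refine (le_of_eq ?_).trans (this.trans (le_of_eq ?_))
    · rw [Real.norm_eq_abs]
    · refine tsum_congr fun m => ?_
      rw [norm_mul, Real.norm_of_nonneg (sq_nonneg _), Real.norm_eq_abs]
  have hRR0 : 0 ≤ RR (sV V ε) w0 m1 r := by
    have h2 : 0 ≤ D * RR (sV V ε) w0 m1 r := (abs_nonneg _).trans habs
    by_contra hneg
    rw [not_le] at hneg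
    nlinarith
  have h7 := (abs_le.1 habs).2
  have h8 : D * RR (sV V ε) w0 m1 r ≤ 2 * RR (sV V ε) w0 m1 r * ∑' m, P m := by
    nlinarith
  nlinarith [sq_nonneg π]

end numbers

end

end Vale.Agent.P159.TM.H164
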